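import Vale.Agent.P022K.OR.Cl

/-!
# P022K, block OR: row CTR (the correspondence contracts the functions close to one)
-/

set_option autoImplicit false
set_option linter.all false

open UpperHalfPlane

noncomputable section

namespace Vale.Agent.P022K.OR

open Vale.Agent.P022K.Sh Vale.Agent.P022K.FI Vale.Agent.P022K.FI.Hk Vale.Agent.P022.H218.L3
  Vale.Agent.P019P P025H816 P025H746 P027M.K

namespace Cn

theorem sub_one_eq {R : Type} [CommRing R] (a : R) {y z : R} (h : y * z = 1) (n : ℕ) :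
    a * z ^ n - 1 = (a - y ^ n) * z ^ n := by rw [sub_mul, ← mul_pow, h, one_pow]

section val

variable {C K L : Type} [NontriviallyNormedField C] [IsUltrametricDist C] [IsAlgClosed C]
  [Field K] [Algebra C K] [Field L] [Algebra C L] {v : NV C L} {w : NV C K}

theorem scal (hn : ∀ r : ℝ, 0 ≤ r → ∃ c : C, ‖c‖ = r) {α β : K →+* L}
    (hc : ∀ c, α (algebraMap C K c) = algebraMap C L c)
    (hc' : ∀ c, β (algebraMap C K c) = algebraMap C L c) {ρ : ℝ}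
    (h : ∀ f, w f ≤ 1 → v (β f - α f) ≤ ρ) (f : K) : v (β f - α f) ≤ ρ * w f := by
  by_cases f0 : f = 0
  · simp [f0]
  have h0 := w.av.pos f0
  obtain ⟨c, e⟩ := hn _ h0.le
  have := h (f / algebraMap C K c) (by rw [map_div₀, w.ext', e, div_le_one h0])
  rwa [map_div₀, map_div₀, hc, hc', ← sub_div, map_div₀, v.ext', e, div_le_iff₀ h0] at this

/-- the estimate -/
theorem est {p : ℕ} (hp : p.Prime) {n : ℕ} (n0 : n ≠ 0) {ι : Type} [Fintype ι]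
    (hι : Fintype.card ι = p ^ n) {a a' g : L} {b : ι → L} {r ρ r₁ : ℝ} (r0 : 0 ≤ r) (h1 : r ≤ ρ)
    (h2 : ‖(p : C)‖ ≤ ρ) (h3 : ρ ≤ 1) (h4 : r₁ ≤ 1) (ha' : v a' ≤ r)
    (hb : ∀ i, v (b i - a') ≤ ρ * r) (hg : v g ≤ r₁) (ha : v (a - g ^ p ^ n) ≤ ρ * r) :
    v ((1 + a) * ∏ i, (1 + b i) - (1 + g) ^ p ^ n) ≤ max (ρ * r) (‖(p : C)‖ * r₁) := by
  have o : v 1 ≤ 1 := by simp
  have h5 : ρ * r ≤ 1 := mul_le_one₀ h3 r0 (h1.trans h3)
  have a1 : v a' ≤ 1 := ha'.trans (h1.trans h3)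
  have a2 : ∀ i, v (1 + b i) ≤ 1 := fun i => NV.add_le o (le_one_of ((hb i).trans h5) a1)
  have a3 : v (∏ i, (1 + b i) - (1 + a') ^ p ^ n) ≤ ρ * r := by
    rw [← hι, ← Finset.card_univ, ← Finset.prod_const]
    exact prod_sub_prod _ ((v.av.nonneg _).trans ha) (fun i => by simpa using hb i) a2
      fun _ => NV.add_le o a1
  have a4 : v (a' ^ p ^ n) ≤ ρ * r := by
    obtain ⟨m, hm⟩ := Nat.exists_eq_add_of_le (Nat.one_lt_pow n0 hp.one_lt)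
    rw [hm, pow_add, Nat.succ_eq_add_one, pow_succ, pow_one]
    refine mul_le' ?_ (NV.pow_le_one' a1 _)
    rw [map_mul]
    exact mul_le_mul (ha'.trans h1) ha' (v.av.nonneg _) (r0.trans h1)
  have a5 := NV.add_le (NV.add_le a3 ((add_pow_le hp n o a1).trans
    (mul_le_mul h2 ha' (v.av.nonneg _) (r0.trans h1)))) a4
  have a6 := NV.sub_le (ha.trans (le_max_left _ _)) (((add_pow_le hp n o (hg.trans h4)).trans
    (mul_le_mul_of_nonneg_left hg (norm_nonneg _))).trans (le_max_right _ _))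
  rw [← mul_one ((1 + g) ^ p ^ n)]
  rw [one_pow, sub_add_sub_cancel, ← sub_sub, sub_add_cancel] at a5
  refine mul_sub_mul (by convert a6 using 2; ring) (le_max_of_le_left a5)
    (P027M.Gs.red_prod _ fun i _ => a2 i).1 (NV.pow_le_one' (NV.add_le o (hg.trans h4)) _)

end val

variable {G0 G : Type} [Group G0] [Group G] {T : Tw G0 G} {U : Subgroup G}
  {O K : Type} [CommRing O] [IsDomain O] [IsDiscreteValuationRing O] [Field K] [Algebra O K]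
  {w : T.Lc O K} {p : ℕ} [Fact p.Prime] [∀ x, CFF ℂ (KX T U x)] {D : Emb w p} (h : Ctx D U)
  {v : NV (Cx D.ι) (LW T)} {τ : ℍ} {x : G}

/-- uniform estimates at one point -/
structure Bd (v : NV (Cx D.ι) (LW T)) (x : G) (ρ : ℝ) : Prop where
  pw : ∀ (ψ : T.RU U) (d : Cx D.ι), d ≠ 0 → h.nv (x * st w) ψ ≤ ‖d‖ ^ qq O → ∃ φ : T.RU U,
    h.nv x φ ≤ ‖d‖ ∧ v (h.evL (x * st w) ψ - h.evL x φ ^ qq O) ≤ ρ * ‖d‖ ^ qq O
  un : ∀ (ψ : T.RU U) b, v (h.evL (x * w.ι (w.tr (some b))) ψ - h.evL (x * (st w)⁻¹) ψ) ≤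
    ρ * h.nv (x * (st w)⁻¹) ψ

theorem Bd.mono {ρ ρ' : ℝ} (b : Bd h v x ρ) (le : ρ ≤ ρ') : Bd h v x ρ' :=
  ⟨fun ψ d h1 h2 => (b.pw ψ d h1 h2).imp fun _ k =>
    ⟨k.1, k.2.trans (mul_le_mul_of_nonneg_right le (by positivity))⟩,
    fun ψ i => (b.un ψ i).trans (mul_le_mul_of_nonneg_right le ((h.nm _).av.nonneg _))⟩

variable (l : Vl D U v τ) (o : Ord w D.e τ x)

include l o

theorem ex_Bd (fg : FG) : ∃ ρ, ρ < 1 ∧ Bd h v x ρ := by
  haveI := w.fin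
  haveI := Fintype.ofFinite (IsLocalRing.ResidueField O)
  obtain ⟨n, hn⟩ := D.qq_eq
  obtain ⟨ρ, -, h1, h2⟩ := pow_emb fg (h.gv (x * st w)).choose_spec (h.inc _) (h.res (l _ o.step))
    (fun _ => rfl) Fact.out (Cx.norm_p_lt D.ι) n (h.inc x).fieldRange
    (fun c => ⟨algebraMap _ _ c, rfl⟩) fun f hf => by
      obtain ⟨g, h3, h4⟩ := (l x o).pw1 (h.inc _ f) f.2 ((h.res (l _ o.step) f).trans_le hf)
      exact ⟨g, ⟨⟨g, h3⟩, rfl⟩, hn ▸ h4⟩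
  have key : ∀ b : IsLocalRing.ResidueField O, ∃ ρ, ρ < 1 ∧ ∀ ψ : T.RU U,
      v (h.evL (x * w.ι (w.tr (some b))) ψ - h.evL (x * (st w)⁻¹) ψ) ≤
        ρ * h.nv (x * (st w)⁻¹) ψ := fun b => by
    have r := rel_mul h.sa h.lev h.mx (rel_sa h.sa h.lev x (det_un (algebraMap O K b.out))) (tt w)⁻¹
    rw [map_inv] at r
    obtain ⟨s, hs⟩ := (ker_refl r).ex
    have e : ∀ ψ, ((h.inc _).comp s.toRingHom) (T.evK U _ ψ) = h.evL (x * w.ι (w.tr (some b))) ψ :=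
      fun ψ => (congrArg (h.inc _) (hs ψ)).trans (Subtype.ext (h.at_some ψ.2.2 x b).symm)
    have hc : ∀ c, ((h.inc _).comp s.toRingHom) (algebraMap (Cx D.ι) _ c) =
      algebraMap (Cx D.ι) _ c := fun c => e (algebraMap ℂ _ c)
    obtain ⟨ρ, -, h3, h4⟩ := two_emb fg (h.gv (x * (st w)⁻¹)).choose_spec (h.inc _)
      (h.res (l _ (ord_back o))) (fun _ => rfl) _ hc fun f hf => by
        obtain ⟨ψ, rfl⟩ := Tw.evK_surj U _ f
        rw [e]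
        exact (l x o).ine _ (h.ok.conj U h.lev (st w)⁻¹) _ (Tw.RU_rt ψ.2 (st w)⁻¹) b.out _ _ rfl
          (h.at_some ψ.2.2 x b) ((h.res (l _ (ord_back o)) _).trans_le hf)
    exact ⟨ρ, h3, fun ψ => e ψ ▸ scal (α := h.inc _) (Cx.exists_norm_eq D.ι) (fun _ => rfl) hc h4 _⟩
  choose f f1 f2 using key
  obtain ⟨ρ', h3, h4, h5⟩ := ex_bd Finset.univ f (fun i _ => f1 i) h1
  refine ⟨ρ', h4, fun ψ d d0 hd => ?_, fun ψ b => (f2 b ψ).trans
    (mul_le_mul_of_nonneg_right (h5 b (Finset.mem_univ b)) ((h.nm _).av.nonneg _))⟩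
  have d1 := pow_pos (norm_pos_iff.2 d0) (qq O)
  obtain ⟨_, ⟨g, rfl⟩, h6, h7⟩ := h2 (T.evK U _ ψ / algebraMap (Cx D.ι) _ d ^ qq O) (by
    rwa [map_div₀, map_pow, (h.nm _).ext', div_le_one d1])
  obtain ⟨φ, hφ⟩ := Tw.evK_surj U x (algebraMap (Cx D.ι) (KX T U x) d * g)
  refine ⟨φ, ?_, ?_⟩
  · rw [Ctx.nv, hφ, map_mul, (h.nm _).ext', ← h.res (l x o)]
    exact mul_le_of_le_one_right (norm_nonneg _) h6
  · have e : h.evL x φ = algebraMap (Cx D.ι) _ d * h.inc x g :=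
      (congrArg (h.inc x) hφ).trans (map_mul _ _ _)
    have d2 : algebraMap (Cx D.ι) (LW T) d ^ qq O ≠ 0 := pow_ne_zero _ ((map_ne_zero _).2 d0)
    rw [map_div₀, map_pow, ← hn, show h.inc _ (algebraMap (Cx D.ι) _ d) =
      algebraMap (Cx D.ι) (LW T) d from rfl, div_sub' d2, map_div₀, map_pow, v.ext',
      div_le_iff₀ d1, ← mul_pow, ← e] at h7
    exact h7.trans (mul_le_mul_of_nonneg_right h3 d1.le)

omit l o in
theorem ev_hp [Fintype (IsLocalRing.ResidueField O)] (u : T.RU U) : h.evL x (hpM h u) =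
    (1 + h.evL (x * st w) (u - 1)) * ∏ b, (1 + h.evL (x * w.ι (w.tr (some b))) (u - 1)) := by
  have e : h.evL x (hpM h u) = ∏ i, h.evL (x * w.ι (w.tr i)) u := Subtype.ext (by
    rw [SubmonoidClass.coe_finsetProd]
    exact (h.mx.rep_To h.lev).hp u.2.2 x)
  simp only [map_sub, map_one, add_sub_cancel]
  rw [e, Fintype.prod_option]
  exact congrArg (· * _) (Subtype.ext (h.at_none u.2.2 x))

theorem map_pt {ρ r : ℝ} (b : Bd h v x ρ) (h1 : ρ ≤ 1) (h2 : r ≤ 1) {u : T.RU U} (hu : Cl h r u) :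
    h.nv x (hpM h u - 1) ≤ r := by
  haveI := w.fin
  haveI := Fintype.ofFinite (IsLocalRing.ResidueField O)
  have o1 : v 1 ≤ 1 := by simp
  have a1 := (h.v_evL (l _ o.step) _).trans_le (hu _)
  have a2 : ∀ i, v (h.evL (x * w.ι (w.tr (some i))) (u - 1)) ≤ r := fun i => by
    have := NV.add_le (((b.un (u - 1) i).trans (mul_le_of_le_one_left ((h.nm _).av.nonneg _) h1)).trans
      (hu _)) ((h.v_evL (l _ (ord_back o)) _).trans_le (hu _))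
    rwa [sub_add_cancel] at this
  have a3 := prod_sub_prod (g := fun _ => 1) Finset.univ ((v.av.nonneg _).trans a1)
    (fun i => (add_sub_cancel_left (1 : LW T) _).symm ▸ a2 i)
    (fun i => NV.add_le o1 ((a2 i).trans h2)) fun _ => o1
  rw [← h.v_evL (l x o), map_sub, map_one, ev_hp, ← mul_one (1 : LW T)]
  rw [Finset.prod_const_one] at a3
  rw [← add_sub_cancel_left (1 : LW T) (h.evL _ _)] at a1
  simpa using mul_sub_mul a1 a3 (le_one_of (a3.trans h2) o1) o1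

theorem con_pt {ρ r r₁ : ℝ} (b : Bd h v x ρ) (h0 : 0 < r) (h1 : r ≤ ρ) (h2 : ‖(p : Cx D.ι)‖ ≤ ρ)
    (h3 : ρ ≤ 1) (h4 : r₁ ≤ 1) (h5 : 0 ≤ r₁) (h6 : r ≤ r₁ ^ qq O) {u : T.RU U} (hu : Cl h r u) :
    ∃ y : T.RU U, h.nv x (y - 1) ≤ r₁ ∧
      h.nv x (hpM h u - y ^ qq O) ≤ max (ρ * r) (‖(p : Cx D.ι)‖ * r₁) := by
  haveI := w.fin
  haveI := Fintype.ofFinite (IsLocalRing.ResidueField O)
  obtain ⟨n, hn⟩ := D.qq_eq
  obtain ⟨c, hc⟩ := Cx.exists_norm_eq D.ι r h0.le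
  obtain ⟨d, rfl⟩ := IsAlgClosed.exists_pow_nat_eq c (Nat.pos_of_ne_zero (qq_ne w))
  rw [norm_pow] at hc
  obtain ⟨φ, a1, a2⟩ := b.pw (u - 1) d (by
    rintro rfl
    rw [norm_zero, zero_pow (qq_ne w)] at hc
    exact h0.ne hc) (hc ▸ hu _)
  have a3 := a1.trans (le_of_pow_le_pow_left₀ (qq_ne w) h5 (hc ▸ h6))
  refine ⟨1 + φ, by rwa [add_sub_cancel_left], ?_⟩
  rw [← h.v_evL (l x o), map_sub, ev_hp, map_pow, map_add, map_one, hn]
  refine est Fact.out (fun e => ?_) (Nat.card_eq_fintype_card.symm.trans hn) h0.le h1 h2 h3 h4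
    ((h.v_evL (l _ (ord_back o)) _).trans_le (hu _)) (fun i => (b.un _ i).trans
      (mul_le_mul_of_nonneg_left (hu _) (h0.le.trans h1))) ((h.v_evL (l x o) _).trans_le a3)
    (hn ▸ hc ▸ a2)
  rw [e, pow_zero] at hn
  exact (Finite.one_lt_card (α := IsLocalRing.ResidueField O)).ne' hn

omit l o in
theorem glue {a : T.RU U} {r t : ℝ} {q : ℕ} (hr : r < 1) (key : ∀ x, ∃ y : T.RU U,
    h.nv (T.rp U x) (y - 1) ≤ r ∧ h.nv (T.rp U x) (a - y ^ q) ≤ t) :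
    ∃ y u, a = y ^ q * u ∧ Cl h r y ∧ Cl h t u := by
  choose y y1 y2 using key
  obtain ⟨Y, hY⟩ : ∃ Y : T.RU U, ∀ x, T.evK U (T.rp U x) Y = T.evK U (T.rp U x) (y (T.rp U x)) := by
    obtain ⟨Y, m, hY⟩ := Tw.ex_RU_all (T := T) (U := U) (f := fun x => (y x).1 x)
      fun x => Tw.RU_KF (y x).2 x
    exact ⟨⟨Y, m⟩, fun x => Subtype.ext (hY x)⟩
  have e' : ∀ x, T.rp U (T.rp U x) = T.rp U x := fun x => (Tw.rp_eq (Tw.rel_rp x)).symm
  have a1 : Cl h r Y := fun x => by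
    have := y1 (T.rp U x)
    rw [e'] at this
    rwa [← h.nv_rel (Tw.rel_rp x), Ctx.nv, map_sub, hY, ← map_sub]
  have a2 : ∀ x, h.nv x (a - Y ^ q) ≤ t := fun x => by
    have := y2 (T.rp U x)
    rw [e'] at this
    rwa [← h.nv_rel (Tw.rel_rp x), Ctx.nv, map_sub, map_pow, hY, ← map_pow, ← map_sub]
  have a3 : ∀ x, h.nm x (T.evK U x Y) = 1 := fun x =>
    eq_one_of (y := 1) (by simpa [Ctx.nv] using (a1 x).trans_lt hr) (by simp)
  obtain ⟨Z, a4⟩ : ∃ Z, Y * Z = 1 := ⟨⟨Y.1⁻¹, Tw.RU_inv Y.2⟩, Subtype.ext (funext fun x =>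
    mul_inv_cancel₀ fun e => P027M.Gs.ne_of_w (a3 x) (Subtype.ext e))⟩
  refine ⟨Y, a * Z ^ q, by rw [mul_left_comm, ← mul_pow, a4, one_pow, mul_one], a1, fun x => ?_⟩
  have a5 := congrArg (fun z => h.nm x (T.evK U x z)) a4
  simp only [map_mul, a3, one_mul, map_one] at a5
  rw [sub_one_eq a a4 q, Ctx.nv, map_mul, map_mul, map_pow _ Z, map_pow, a5, one_pow, mul_one]
  exact a2 x

end Cn

open Cn in
/-- **row CTR** -/
theorem ctr (fg : FG) : CTR := by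
  intro G0 G _ _ T U O K _ _ _ _ _ w p _ _ D h
  have p0 : 0 < ‖(p : Cx D.ι)‖ := norm_pos_iff.2 (Nat.cast_ne_zero.2 (Fact.out : p.Prime).ne_zero)
  have key : ∀ x, ∃ ρ, ρ < 1 ∧ ∃ τ y v, T.Rel U x y ∧ Vl D U v τ ∧ Ord w D.e τ y ∧ Bd h v y ρ :=
    fun x => by
      obtain ⟨τ, y, o, r⟩ := h.ex_ord x
      obtain ⟨v, l⟩ := h.rd.loc τ y o
      obtain ⟨ρ, h1, h2⟩ := ex_Bd h l o fg
      exact ⟨ρ, h1, τ, y, v, r, l, o, h2⟩
  choose f f1 f2 using key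
  refine ⟨p0, Cx.norm_p_lt D.ι, fun r hr x => by simpa [Ctx.nv] using hr,
    fun r r' u le hu x => (hu x).trans le, fun r a b hr ha hb x => ?_, fun r u hr hu x => ?_,
    fun r hr => ?_⟩
  · have o1 : h.nm x 1 ≤ 1 := by simp
    have h1 := ha x
    have h2 := hb x
    simp only [Ctx.nv, map_sub, map_one, map_mul] at h1 h2 ⊢
    simpa using mul_sub_mul h1 h2 (le_one_of (h2.trans hr.le) o1) o1
  · obtain ⟨τ, y, v, k, l, o, b⟩ := f2 x
    exact h.nv_rel k _ ▸ map_pt h l o b (f1 x).le hr.le hu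
  obtain ⟨ρ, h1, h2, h3⟩ := ex_bd (h.ok.fin_rp h.lev).toFinset f (fun x _ => f1 x)
    (max_lt hr (Cx.norm_p_lt D.ι))
  have h4 := p0.trans_le ((le_max_right _ _).trans h1)
  obtain ⟨c, hc⟩ := Cx.exists_norm_eq D.ι ρ h4.le
  obtain ⟨d, rfl⟩ := IsAlgClosed.exists_pow_nat_eq c (Nat.pos_of_ne_zero (qq_ne w))
  rw [norm_pow] at hc
  have h5 : ‖d‖ < 1 := (pow_lt_one_iff_of_nonneg (norm_nonneg _) (qq_ne w)).1 (hc ▸ h2)
  have h6 : 0 < ‖d‖ := (norm_nonneg d).lt_of_ne fun e => by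
    rw [← e, zero_pow (qq_ne w)] at hc
    exact h4.ne hc
  refine ⟨ρ, ‖d‖, _, h4.le, h2, h6.le, h5, mul_pos p0 h6, mul_lt_of_lt_one_right p0 h5,
    fun r' r0 le u hu => ?_⟩
  have h7 := (le.trans (le_max_left _ _)).trans h1
  have key : ∀ x, ∃ y : T.RU U, h.nv (T.rp U x) (y - 1) ≤ ‖d‖ ∧
      h.nv (T.rp U x) (hpM h u - y ^ qq O) ≤ max (ρ * r') (‖(p : Cx D.ι)‖ * ‖d‖) := fun x => by
    obtain ⟨τ, y, v, k, l, o, b⟩ := f2 (T.rp U x)
    simp only [← h.nv_rel k]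
    exact con_pt h l o (b.mono h (h3 _ (by simp))) r0 h7 ((le_max_right _ _).trans h1) h2.le h5.le
      h6.le (hc ▸ h7) hu
  exact glue h h5 key

end Vale.Agent.P022K.OR
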