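import Vale.Agent.P022K.OR.St0

/-!
# P022K, block OR: the valuation ring of a Gauss point is essentially of finite type
-/

set_option autoImplicit false

open Vale.Agent.P019P P025H746 P025H816 P025H373 P027M.K Polynomial

namespace Vale.Agent.P022K.OR

/-- **FG** -/
theorem fg : FG := by
  intro C K _ _ _ _ _ _ w S h
  classical
  have hf := h.full
  have := hf.fin
  obtain ⟨n, z, hz⟩ := P025H992.exists_on hf.og.transc (by
    rw [Fintype.sum_eq_single ⟨w, hf.og⟩ fun v hv => absurd (Subtype.ext (hf.uniq v.2)) hv]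
    exact hf.deg_eq)
  refine ⟨insert S (Finset.univ.image z), fun a ha => ?_, fun B h1 h2 h3 x hx => ?_⟩
  · rcases Finset.mem_insert.1 ha with rfl | ha
    · exact hf.wT.le
    · obtain ⟨k, -, rfl⟩ := Finset.mem_image.1 ha
      exact hz.le w hf.og k
  · have hp : ∀ P : C[X], gp P ≤ 1 → aeval S P ∈ B := fun P hP => by
      rw [aeval_eq_sum_range]
      refine sum_mem fun i _ => ?_
      rw [Algebra.smul_def]
      exact mul_mem (h1 _ ((norm_coeff_le P i).trans hP))
        (pow_mem (h3 _ (Finset.mem_insert_self _ _)) i)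
    obtain ⟨Q, P, Q0, e⟩ := hz.span x
    obtain ⟨i, hi⟩ := exists_coeff_eq Q
    have hc : ‖Q.coeff i‖ ≠ 0 := fun h => Q0 (gp_eq_zero.1 (hi ▸ h))
    have q1 : gp (Polynomial.C (Q.coeff i)⁻¹ * Q) = 1 := by
      rw [gp_mul, gp_C, norm_inv, ← hi, inv_mul_cancel₀ hc]
    have e1 : aeval S (Polynomial.C (Q.coeff i)⁻¹ * Q) * x =
        ∑ k, aeval S (Polynomial.C (Q.coeff i)⁻¹ * P k) * z k := by
      rw [map_mul, mul_assoc, e, Finset.mul_sum]
      exact Finset.sum_congr rfl fun k _ => by rw [map_mul, mul_assoc]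
    have q2 := (hf.og _).trans q1
    have q3 := hz.on _ 1 fun v hv => by rwa [← e1, hf.uniq hv, map_mul, q2, one_mul]
    have q0 : aeval S (Polynomial.C (Q.coeff i)⁻¹ * Q) ≠ 0 := fun e0 => by
      rw [e0, map_zero] at q2
      exact zero_ne_one q2
    rw [← inv_mul_cancel_left₀ q0 x, e1]
    exact mul_mem (h2 _ (hp _ q1.le) q2) (sum_mem fun k _ => mul_mem (hp _ (q3 k))
      (h3 _ (Finset.mem_insert_of_mem (Finset.mem_image_of_mem z (Finset.mem_univ k)))))

end Vale.Agent.P022K.OR
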