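import Vale.Agent.P027M.G.Key
import Vale.Agent.P027M.G.Sp
import Vale.Agent.P027M.K.Weil

/-!
# P022K, block OR: two statements on curves with good reduction
-/

set_option autoImplicit false

open Vale.Agent.P019P P025H746 P025H816 P027M.K

namespace Vale.Agent.P022K.OR

/-- **SYM**: the Weil pairing of two functions which are close to one is close to one -/
def SYM : Prop := ∀ (C K : Type) [NontriviallyNormedField C] [IsUltrametricDist C] [IsAlgClosed C]
  [Field K] [Algebra C K] [CFF C K] (w : NV C K) (S : K), P027M.G.Good w S → ∀ n : ℕ, n ≠ 0 →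
  ∀ f ∈ divU C K n, ∀ g ∈ divU C K n, ∀ r : ℝ, r < 1 → w ((f : K) - 1) ≤ r →
    w ((g : K) - 1) ≤ r → ‖(((e C n f g).toMul : Cˣ) : C) - 1‖ ≤ r

/-- **FG**: the valuation ring is essentially of finite type -/
def FG : Prop := ∀ (C K : Type) [NontriviallyNormedField C] [IsUltrametricDist C] [IsAlgClosed C]
  [Field K] [Algebra C K] [CFF C K] (w : NV C K) (S : K), P027M.G.Good w S →
  ∃ A : Finset K, (∀ a ∈ A, w a ≤ 1) ∧ ∀ B : Subring K, (∀ c : C, ‖c‖ ≤ 1 → algebraMap C K c ∈ B) →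
    (∀ b ∈ B, w b = 1 → b⁻¹ ∈ B) → (∀ a ∈ A, a ∈ B) → ∀ x, w x ≤ 1 → x ∈ B

end Vale.Agent.P022K.OR
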