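import Vale.Agent.P022K.QT.If2
import Vale.Agent.P022K.F0.Weil
import Vale.Agent.P022K.QT.CcF
import Vale.Agent.P022K.OR.St0
import Vale.Agent.P022.H443.Tame

/-!
# P022K, block OR: the Galois action on ordinary classes at a place over `p` (statements)
-/

set_option autoImplicit false

open NumberField Polynomial
open scoped MatrixGroups

noncomputable section

namespace Vale.Agent.P022K.OR

open Vale.Agent.P022 Vale.Agent.P022K.Sh Vale.Agent.P022.H218.L3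
open Vale.Agent.P022.H443 (inP)

section

variable {G0 G : Type} [Group G0] [Group G] {T : Tw G0 G} {O K : Type} [CommRing O] [IsDomain O]
  [IsDiscreteValuationRing O] [Field K] [Algebra O K] (w : T.Lc O K) {H : Type}

/-- ordinary classes, finite level: `N` is the kernel of the reduction -/
def OrL (p : ℕ) (th : H → (G → Mer) → G → Mer) (I Φ : Set H) (ε : H → ℕ → ℕ) : Prop :=
  ∀ U ∈ T.Nl, w.At (KK O K) U → ∀ (c : Cor U (w.To U) U) (k : ℕ),
  ∃ N : AddSubgroup (T.Hn (p ^ k) U), (∀ a ∈ N, T.hN (p ^ k) c a ∈ N) ∧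
    (∀ s ∈ I, ∀ a a', T.Ga (th s) (p ^ k) U a a' → a' - a ∈ N) ∧
    (∀ φ ∈ Φ, ∀ a a₁ a₂, T.Ga (th φ) (p ^ k) U a a₁ → T.Ga (th φ) (p ^ k) U a₁ a₂ →
      a₂ - T.hN (p ^ k) c a₁ + qq O • a ∈ N) ∧
    ∀ s ∈ I, ∀ a ∈ N, ∀ a', (∃ m, 0 < m ∧ (T.hN (p ^ k) c ^ m) a = a) →
      T.Ga (th s) (p ^ k) U a a' → a' = ε s k • a

variable {Λ M : Type} [CommRing Λ] [AddCommGroup M] [Module Λ M] (a : Representation Λ G M)

/-- ordinary vectors of the module -/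
def OrM [Group H] (g : Representation Λ H M) (I Φ : Set H) (ε : H → Λ) (U : Subgroup G) : Prop :=
  ∀ z ∈ Fv a U, (∃ n, 0 < n ∧ (w.Tv a ^ n) z = z) → ∀ s ∈ I,
    (∀ s' ∈ I, (g s - ε s • 1) (g s' z - z) = 0) ∧
    ∀ φ ∈ Φ, (g s - ε s • 1) (g φ (g φ z) - w.Tv a (g φ z) + qq O • z) = 0

/-- `T ^ 2 - (q + 1) ^ 2` divides a non zero integer, finite level -/
def RaL (U : Subgroup G) : Prop := ∃ (o : ℤ) (Q : ℤ[X]), o ≠ 0 ∧
  ∀ (c : Cor U (w.To U) U) (n : ℕ), 0 < n → ∀ b : T.Hn n U,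
    aeval (T.hN n c) (Q * (X ^ 2 - (qq O + 1 : ℤ[X]) ^ 2)) b = o • b

/-- the same for the module -/
def RaM (U : Subgroup G) : Prop := ∃ o : Λ, o ≠ 0 ∧ ∀ z ∈ Fv a U,
  w.Tv a (w.Tv a z) = (qq O + 1) ^ 2 • z → o • z = 0

end

/-- **ORM**: from finite level to the module with coefficients -/
def ORM : Prop := ∀ (G0 G : Type) [Group G0] [Group G] (T : Tw G0 G) (A : T.Ax) (p : ℕ)
  [Fact p.Prime] (H : Type) [Group H] [TopologicalSpace H] (th : H → (G → Mer) → G → Mer)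
  (M : Type) [AddCommGroup M] (a : Representation ℤ G M) (g : Representation ℤ H M)
  (im : ∀ k U, T.Hn (p ^ k) U →+ M) (Λ : Type) [CommRing Λ] [IsDomain Λ] [CharZero Λ]
  [Algebra ℤ_[p] Λ], Finite (Λ ⧸ Ideal.span {(p : Λ)}) → T.Ok0 → A.GR p th → T.CC p a g →
  A.Lk p a g th im → T.AllL fun {O K} _ _ _ _ _ w => ∀ U ∈ T.Nl, w.At (KK O K) U →
    (∀ (I Φ : Set H) (ε : H → ℤ_[p]),
      OrL w p th I Φ (fun s k => (PadicInt.toZModPow k (ε s)).val) →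
      OrM w (bc Λ a) (bc Λ g) I Φ (fun s => algebraMap ℤ_[p] Λ (ε s)) U) ∧
    (RaL w U → RaM w (bc Λ a) U)

section

variable {F : Type} [Field F] [NumberField F] (X : QD F)

/-- **ORX**: the finite level statement for quaternion algebras -/
def ORX : Prop := ∀ j io, X.Emb j io → ∀ H : Subgroup GQ, H ≤ GK j → ∀ th, X.tw.Th io H th →
  X.tw.AllL fun {O _} _ _ _ _ _ L => ∀ w, X.IsPl w L → ∀ (p : ℕ) [Fact p.Prime]
    (P : Ideal (𝓞 Qb)), P.IsPrime → (p : 𝓞 Qb) ∈ P → below j P = w.asIdeal →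
    OrL L p th {s | s.1 ∈ inP P} {s | ∀ x : 𝓞 Qb, s.1 • x - x ^ qq O ∈ P} fun s k =>
      (PadicInt.toZModPow k (cyclotomicCharacter Qb p s.1.toRingEquiv).val).val

/-- **RAO**: the strict bound, integrally -/
def RAO : Prop := X.tw.AllL fun {O K} _ _ _ _ _ L => L.SA → ∀ U ∈ X.tw.Nl,
  L.At (KK O K) U → RaL L U

end

end Vale.Agent.P022K.OR
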