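import Vale.Agent.P022K.OR.Cl
import Vale.Agent.P022K.OR.St

/-!
# P022K, block OR: the kernel of the reduction
-/

set_option autoImplicit false
set_option linter.all false

open UpperHalfPlane NumberField

noncomputable section

namespace Vale.Agent.P022K.OR

open Vale.Agent.P022 Vale.Agent.P022K.Sh Vale.Agent.P022K.FI Vale.Agent.P022K.FI.Hk
  Vale.Agent.P022.H218.L3 Vale.Agent.P019P P025H816 P025H746 P027M.K Vale.Agent.P027M Tw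

section abstract

variable {G0 G : Type} [Group G0] [Group G] {T : Tw G0 G} {U : Subgroup G} {n : ℕ} (hn : 0 < n)
  {a a' b : T.Hn n U} {σ : ℂ ≃+* ℂ} {θ : (G → Mer) → G → Mer}

section

variable {φ y : G → Mer}

include hn

theorem kr_nsmul (k : T.KR n U a φ) (m : ℕ) : T.KR n U (m • a) (φ ^ m) := by
  induction m with
  | zero => rw [zero_smul, pow_zero]; exact kr_zero
  | succ m ih => rw [succ_nsmul, pow_succ]; exact ih.add hn k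

theorem kr_mul (k : T.KR n U a φ) (hy : y ∈ T.RU U) (y0 : ∀ x, y x ≠ 0) :
    T.KR n U a (φ * y ^ n) := by
  obtain ⟨z, g, e, k, rfl⟩ := k
  exact ⟨z, g * y, e, k.mul_RU hn hy y0, mul_pow _ _ _⟩

theorem kr_ne (k : T.KR n U a φ) (x : G) : φ x ≠ 0 := ((k.kd hn).2 x).1

theorem kr_inv (k : T.KR n U a φ) : T.KR n U (-a) φ⁻¹ := by
  obtain ⟨m, rfl⟩ := Nat.exists_eq_add_one_of_ne_zero hn.ne'
  have := kr_mul hn (kr_nsmul hn k m) (RU_inv (k.kd hn).1) fun x => inv_ne_zero (kr_ne hn k x)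
  convert this using 1
  · rw [neg_eq_iff_add_eq_zero, ← succ_nsmul', ← Nat.cast_smul_eq_nsmul (ZMod (m + 1)),
      ZMod.natCast_self, zero_smul]
  · funext x
    rw [Pi.mul_apply, Pi.pow_apply, Pi.pow_apply, pow_succ, ← mul_assoc, ← mul_pow, Pi.inv_apply,
      mul_inv_cancel₀ (kr_ne hn k x), one_pow, one_mul]

theorem kr_div (k : T.KR n U a (y ^ n * φ)) (hy : y ∈ T.RU U) : T.KR n U a φ := by
  have y0 : ∀ x, y x ≠ 0 := fun x e => kr_ne hn k x (by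
    rw [Pi.mul_apply, Pi.pow_apply, e, zero_pow hn.ne', zero_mul])
  convert kr_mul hn k (RU_inv hy) fun x => inv_ne_zero (y0 x) using 1
  funext x
  simp [y0 x, mul_comm]

theorem kr_gal (s : T.Sl σ θ) (hU : U ∈ T.Lev) (g : T.Ga θ n U a a') (k : T.KR n U a φ) :
    T.KR n U a' (θ φ) := by
  obtain ⟨ψ, l, l'⟩ := g.kr
  obtain ⟨y, hy, rfl⟩ := (k.eq_iff hn l).1 rfl
  rw [s.mul U hU _ (l.kd hn).1 _ (pow_mem hy n), s.em.pow hU hy]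
  exact kr_mul hn l' (s.mem U hU y hy) (s.em.ne hU hy fun x e => kr_ne hn k x (by
    rw [Pi.mul_apply, Pi.pow_apply, e, zero_pow hn.ne', mul_zero]))

end

variable {O K : Type} [CommRing O] [IsDomain O] [IsDiscreteValuationRing O] [Field K] [Algebra O K]
  {w : T.Lc O K} {p : ℕ} [Fact p.Prime] [∀ x, CFF ℂ (KX T U x)] {D : Emb w p} {h : Ctx D U}
  (ct : Ctr (hpM h) (Cl h) (qq O) ‖(p : Cx D.ι)‖)

theorem Cl.val {r : ℝ} {φ : T.RU U} (c : Cl h r φ) (x : G) : h.nm x (T.evK U x φ - 1) ≤ r := by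
  have := c x
  rwa [Ctx.nv, RingHom.map_sub, RingHom.map_one] at this

/-- the kernel of the reduction -/
def NN : AddSubgroup (T.Hn n U) where
  carrier := {a | ∃ r < 1, ∃ φ : T.RU U, T.KR n U a φ.1 ∧ Cl h r φ}
  zero_mem' := ⟨0, one_pos, 1, kr_zero, ct.one 0 le_rfl⟩
  add_mem' := fun ⟨r, h1, φ, k, c⟩ ⟨r', h2, ψ, k', c'⟩ => ⟨_, max_lt h1 h2, φ * ψ, k.add hn k',
    ct.mul _ _ _ (max_lt h1 h2) (ct.mono _ _ _ (le_max_left _ _) c)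
      (ct.mono _ _ _ (le_max_right _ _) c')⟩
  neg_mem' := fun {a} ⟨r, h1, φ, k, c⟩ => ⟨r, h1, ⟨_, RU_inv φ.2⟩, kr_inv hn k, fun x => by
    have := inv_sub_inv' (c.val x) (eq_one_of ((c.val x).trans_lt h1) (map_one _)) (map_one _)
    rw [inv_one] at this
    rw [Ctx.nv, map_sub, map_one]
    exact this⟩

theorem mem_N {φ ψ : T.RU U} (k : T.KR n U a φ.1) (k' : T.KR n U b ψ.1)
    (H : ∀ τ x, Ord w D.e τ x → h.nv x φ = 1 ∧ h.nv x ψ ≤ 1 ∧ h.red x φ = h.red x ψ) :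
    a - b ∈ NN hn ct := by
  have key : ∀ x, h.nv x (φ * ⟨_, RU_inv ψ.2⟩ - 1) < 1 := fun x => by
    obtain ⟨τ, y, o, r⟩ := h.ex_ord x
    obtain ⟨h1, h2, h3⟩ := H τ y o
    have h5 : h.nm y (T.evK U y ψ) = 1 := Gs.w_eq_one h2 (h3 ▸ NV.red_ne_zero h1 :
      h.red y ψ ≠ 0)
    have h6 := (I.red_eq_iff h1.le h2).1 h3
    rw [← h.nv_rel r, Ctx.nv, map_sub, map_mul, map_one,
      show T.evK U y ⟨_, RU_inv ψ.2⟩ = (T.evK U y ψ)⁻¹ from rfl,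
      ← mul_inv_cancel₀ (Gs.ne_of_w h5), ← sub_mul, map_mul, map_inv₀, h5, inv_one, mul_one]
    exact h6
  obtain ⟨S, hS⟩ := h.ok.fin U h.lev
  obtain ⟨r, -, h1, h2⟩ := ex_bd S _ (fun x _ => key x) one_pos
  refine ⟨r, h1, φ * ⟨_, RU_inv ψ.2⟩, sub_eq_add_neg a b ▸ k.add hn (kr_inv hn k'), fun x => ?_⟩
  obtain ⟨y, hy, e⟩ := hS x
  exact (h.nv_rel e _).trans_le (h2 y hy)

theorem ine_N (s : T.Sl σ θ) (i : h.Ine (thU s h.lev)) (g : T.Ga θ n U a a') :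
    a' - a ∈ NN hn ct := by
  obtain ⟨z, z', rfl, rfl, k⟩ := g
  obtain ⟨g, g', φ, k, k', e, e', h1⟩ := h.norm s hn (k (AddMonoidHom.id _))
  exact mem_N hn ct (φ := thU s h.lev φ) ⟨z', g', rfl, k', e'.symm⟩ ⟨z, g, rfl, k, e.symm⟩
    fun τ x _ => ⟨((i x).2 φ).1.trans (h1 x), (h1 x).le, ((i x).2 φ).2.symm⟩

theorem fro_N (s : T.Sl σ θ) (f : h.Fro (thU s h.lev)) (c : Cor U (w.To U) U)
    {a₁ a₂ : T.Hn n U} (g : T.Ga θ n U a a₁) (g' : T.Ga θ n U a₁ a₂) :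
    a₂ - T.hN n c a₁ + qq O • a ∈ NN hn ct := by
  obtain ⟨z, z₁, rfl, rfl, k⟩ := g
  obtain ⟨g, g₁, φ, k, k₁, e₀, e₁, h1⟩ := h.norm s hn (k (AddMonoidHom.id _))
  have l₁ : T.KR n U (T.mh z₁) (θ φ.1) := ⟨z₁, g₁, rfl, k₁, e₁.symm⟩
  have h2 : ∀ φ : T.RU U, (∀ x, h.nv x φ = 1) → ∀ x, h.nv x (thU s h.lev φ) = 1 := fun φ h1 x => by
    rw [← inv_mul_cancel_right x (st w), f.2.1, h1]
  have h3 := h2 φ h1
  have h4 := h2 _ h3
  rw [sub_add_eq_add_sub]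
  refine mem_N hn ct (φ := thU s h.lev (thU s h.lev φ) * φ ^ qq O) (ψ := h.hpR (thU s h.lev φ))
    ((kr_gal hn s h.lev g' l₁).add hn (kr_nsmul hn ⟨z, g, rfl, k, e₀.symm⟩ _)) (l₁.hC hn c)
    fun τ x o => ?_
  obtain ⟨v, l⟩ := h.rd.loc τ x o
  obtain ⟨h5, h6⟩ := h.rv_hp l o fun y => (h3 y).le
  refine ⟨by rw [Ctx.nv, map_mul, map_pow, map_mul, map_pow]; simp [← Ctx.nv.eq_1, h1, h4], h5,
    (h.emb (l x o)).injective ?_⟩
  have h7 := f.2.2 v τ _ l (ord_back o) (thU s h.lev φ)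
  rw [inv_mul_cancel_right] at h7
  have h8 : v (h.evL x φ) ≤ 1 := ((h.v_evL (l x o) φ).trans (h1 x)).le
  rw [h.emb_red, h.emb_red, h6, f.2.2 v τ x l o, ← h7, mul_comm, Ctx.rv, map_mul, map_pow,
    NV.red_mul (NV.pow_le_one' h8 _) ((h.v_evL (l x o) _).trans (h4 x)).le, NV.red_pow h8]
  rfl

include hn in
theorem kr_iter (c : Cor U (w.To U) U) {φ : T.RU U} (k : T.KR n U a φ.1) (m : ℕ) :
    T.KR n U ((T.hN n c ^ m) a) ((hpM h)^[m] φ).1 := by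
  induction m with
  | zero => exact k
  | succ m ih =>
    rw [pow_succ', Function.iterate_succ_apply']
    exact ih.hC hn c

theorem eU_zero (sym : SYM) {k : ℕ} {φ ψ : T.RU U} (hφ : T.KD (p ^ k) U φ.1)
    (hψ : T.KD (p ^ k) U ψ.1) {t : ℝ} (ht : t < ‖(p : Cx D.ι)‖) (c : Cl h t φ) (c' : Cl h t ψ) :
    T.eU (p ^ k) U φ.1 ψ.1 = 0 := by
  have := h.ok.finDC h.lev
  have := Fintype.ofFinite (T.DC U)
  have hn := pow_pos (Fact.out : p.Prime).pos k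
  rw [eU_eq]
  refine Finset.sum_eq_zero fun d _ => ?_
  have g := h.ok.gd h.lev h.neat (rq d)
  have e := g.e_nsmul hn (hφ.kd _) (hψ.kd _)
  obtain ⟨u, hu, e1⟩ := (hφ.kd (rq d)).ex g
  obtain ⟨v, hv, e2⟩ := (hψ.kd (rq d)).ex g
  rw [← e1, ← e2, eG_eq] at e ⊢
  have h1 := sym (Cx D.ι) _ (h.nm (rq d)) _ (h.gv _).choose_spec _ hn.ne' u hu v hv t
    (ht.trans (Cx.norm_p_lt _))
    ((Subtype.ext e1 : (u : KX T U (rq d)) = T.evK U _ φ) ▸ c.val _)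
    ((Subtype.ext e2 : (v : KX T U (rq d)) = T.evK U _ ψ) ▸ c'.val _)
  exact Additive.toMul.injective (Units.ext (root_eq_one (C := Cx D.ι) k (Cx.norm_p_lt _).le
    (h1.trans_lt ht) (congrArg (fun x : Additive ℂˣ => (x.toMul : ℂ)) e)))

theorem iso_N (sym : SYM) {k : ℕ} (hn : 0 < p ^ k) (c : Cor U (w.To U) U)
    {e : T.Hn (p ^ k) U →ₗ[ZMod (p ^ k)] T.Hn (p ^ k) U →ₗ[ZMod (p ^ k)] ZMod (p ^ k)}
    (he : ∀ a b φ ψ, T.KR _ U a φ → T.KR _ U b ψ → eu _ (e a b) = T.eU (p ^ k) U φ ψ)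
    {a b : T.Hn (p ^ k) U} (ha : a ∈ NN hn ct) (hb : b ∈ NN hn ct) {m : ℕ} (m0 : 0 < m)
    (hm : (T.hN _ c ^ m) a = a) : e a b = 0 := by
  have adj : ∀ j a b, e ((T.hN _ c ^ j) a) b = e a ((T.hN _ c ^ j) b) := fun j => by
    induction j with
    | zero => exact fun _ _ => rfl
    | succ j ih =>
      intro a b
      rw [pow_succ, Module.End.mul_apply, ih, ← pow_succ, pow_succ', Module.End.mul_apply]
      obtain ⟨φ, k⟩ := h.ok.ex_kr h.lev hn a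
      obtain ⟨ψ, k'⟩ := h.ok.ex_kr h.lev hn ((T.hN _ c ^ j) b)
      refine eu_inj hn ?_
      rw [he _ _ _ _ (k.hC hn c) k', he _ _ _ _ k (k'.hC hn c), h.ok.eU_adj h.lev h.neat h.lev
        h.neat hn c ((h.mx.To_inv h.lev).symm ▸ c) (k.kd hn) (k'.kd hn), h.mx.To_inv h.lev]
  obtain ⟨r, h1, φ, l, cl⟩ := ha
  obtain ⟨r', h2, ψ, l', cl'⟩ := hb
  obtain ⟨A, r₁, t, -, -, h3, h4⟩ := ct.all k (max_lt h1 h2)
  obtain ⟨s, hs⟩ := pow_dvd_pow_of_dvd D.dvd k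
  have key : ∀ {a : T.Hn (p ^ k) U} {φ : T.RU U}, T.KR _ U a φ.1 → Cl h (max r r') φ →
      ∃ ψ : T.RU U, T.KR _ U ((T.hN _ c ^ A) a) ψ.1 ∧ Cl h t ψ := fun l cl => by
    obtain ⟨y, u, e1, -, h5⟩ := h4 _ cl
    have := kr_iter hn c l A (h := h)
    rw [e1, hs, mul_comm _ s, pow_mul] at this
    exact ⟨u, kr_div hn this (y ^ s).2, h5⟩
  obtain ⟨m, rfl⟩ := Nat.exists_eq_add_one_of_ne_zero m0.ne'
  obtain ⟨φ', h5, h6⟩ := key (kr_iter hn c l (m * (A + A)))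
    (ct.iter (max_lt h1 h2) (ct.mono _ _ _ (le_max_left _ _) cl) _)
  obtain ⟨ψ', h7, h8⟩ := key l' (ct.mono _ _ _ (le_max_right _ _) cl')
  have h9 := (he _ _ _ _ h5 h7).trans (eU_zero sym (h5.kd hn) (h7.kd hn) h3 h6 h8)
  rw [← adj, ← Module.End.mul_apply, ← Module.End.mul_apply, ← pow_add, ← pow_add,
    show A + A + m * (A + A) = (m + 1) * (A + A) by ring, pow_mul, Module.End.pow_apply,
    Function.iterate_fixed hm] at h9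
  exact eu_inj hn (h9.trans (eu_zero _).symm)

theorem ord_N (sym : SYM) {k : ℕ} (hn : 0 < p ^ k) (c : Cor U (w.To U) U) (s : T.Sl σ θ)
    (i : h.Ine (thU s h.lev)) {κ : ZMod (p ^ k)} (hκ : σ (en (p ^ k) 1) = en _ κ)
    {a a' : T.Hn (p ^ k) U} (ha : a ∈ NN hn ct) (hm : ∃ m, 0 < m ∧ (T.hN _ c ^ m) a = a)
    (g : T.Ga θ _ U a a') : a' = κ.val • a := by
  obtain ⟨m, m0, hm⟩ := hm
  have : NeZero (p ^ k) := ⟨hn.ne'⟩
  obtain ⟨e, he⟩ := h.ok.ex_e h.lev h.neat hn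
  have h1 : a' ∈ NN hn ct := by simpa using add_mem (ine_N hn ct s i g) ha
  have h2 : ∀ j, T.Ga θ _ U ((T.hN _ c ^ j) a) ((T.hN _ c ^ j) a') := fun j => by
    induction j with
    | zero => exact g
    | succ j ih =>
      rw [pow_succ']
      exact ih.hC s h.lev hn h.ok c
  have h3 := (h2 m).unique s h.lev hn (hm.symm ▸ g)
  obtain ⟨χ, l⟩ := h.ok.ex_kr h.lev hn (a' - κ • a)
  rw [← Nat.cast_smul_eq_nsmul (ZMod (p ^ k)), ZMod.natCast_zmod_val, ← sub_eq_zero]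
  refine h.ok.eU_nondeg h.lev h.neat hn l fun ψ l' => ?_
  obtain ⟨b, l'⟩ := h.ok.ex_kr' h.lev hn l'
  obtain ⟨b', g'⟩ := ex_isGal s h.lev hn h.ok h.cf T.poi h.neat b
  obtain ⟨φ, l₀, l₁⟩ := g.kr
  have l₂ := kr_gal hn s h.lev g' l'
  have h4 : e a' b' = κ * e a b := eu_inj hn (by
    rw [he _ _ _ _ l₁ l₂, ← aU_eu hn hκ, he _ _ _ _ l₀ l',
      h.ok.eU_gal h.lev h.neat hn s (l₀.kd hn) (l'.kd hn) (l₁.kd hn) (l₂.kd hn)])
  have h5 := iso_N ct sym hn c he h1 (ine_N hn ct s i g') m0 h3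
  rw [map_sub, h4, sub_eq_zero] at h5
  rw [← he _ _ _ _ l l', map_sub, map_smul, LinearMap.sub_apply, LinearMap.smul_apply, smul_eq_mul,
    h5, sub_self, eu_zero]

include ct in
theorem orl_lev (sym : SYM) (k : ℕ) (c : Cor U (w.To U) U) {H : Type}
    {th : H → (G → Mer) → G → Mer} {I Φ : Set H} {κ : H → ZMod (p ^ k)}
    (hI : ∀ s ∈ I, ∃ σ θ, ∃ s₁ : T.Sl σ θ, h.Ine (thU s₁ h.lev) ∧ σ (en (p ^ k) 1) = en _ (κ s) ∧
      ∀ a a', T.Ga (th s) (p ^ k) U a a' → T.Ga θ (p ^ k) U a a')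
    (hΦ : ∀ s ∈ Φ, ∃ σ θ, ∃ s₁ : T.Sl σ θ, h.Fro (thU s₁ h.lev) ∧
      ∀ a a', T.Ga (th s) (p ^ k) U a a' → T.Ga θ (p ^ k) U a a') :
    ∃ N : AddSubgroup (T.Hn (p ^ k) U), (∀ a ∈ N, T.hN (p ^ k) c a ∈ N) ∧
    (∀ s ∈ I, ∀ a a', T.Ga (th s) (p ^ k) U a a' → a' - a ∈ N) ∧
    (∀ φ ∈ Φ, ∀ a a₁ a₂, T.Ga (th φ) (p ^ k) U a a₁ → T.Ga (th φ) (p ^ k) U a₁ a₂ →
      a₂ - T.hN (p ^ k) c a₁ + qq O • a ∈ N) ∧
    ∀ s ∈ I, ∀ a ∈ N, ∀ a', (∃ m, 0 < m ∧ (T.hN (p ^ k) c ^ m) a = a) →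
      T.Ga (th s) (p ^ k) U a a' → a' = (κ s).val • a := by
  have hn := pow_pos (Fact.out : p.Prime).pos k
  refine ⟨NN hn ct, ?_, fun s hs a a' g => ?_, fun s hs a a₁ a₂ g g' => ?_,
    fun s hs a ha a' hm g => ?_⟩
  · rintro a ⟨r, h2, φ, l, cl⟩
    exact ⟨r, h2, hpM h φ, l.hC hn c, ct.map r φ h2 cl⟩
  · obtain ⟨σ, θ, s₁, i, -, t⟩ := hI s hs
    exact ine_N hn ct s₁ i (t _ _ g)
  · obtain ⟨σ, θ, s₁, f, t⟩ := hΦ s hs
    exact fro_N hn ct s₁ f c (t _ _ g) (t _ _ g')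
  · obtain ⟨σ, θ, s₁, i, e, t⟩ := hI s hs
    exact ord_N ct sym hn c s₁ i e ha hm (t _ _ g)

theorem ine_fro (noa : NOA) (ff : FF T) (cen : CEN T) (cj : CJ T)
    (ari : ∀ τ x, Ord w D.e τ x → Ari w τ x)
    (rd : ∀ U ∈ T.Lev, T.Neat U → w.At (KK O K) U → ∀ [∀ x, CFF ℂ (KX T U x)], RD D U)
    (h : Ctx D U) (s : T.Sl σ θ) : (Dec D.ι D.e 1 σ → h.Ine (thU s h.lev)) ∧
      (Dec D.ι D.e (qq O) σ → h.Fro (thU s h.lev)) := by
  have main : ∀ d, Dec D.ι D.e (qq O ^ d) σ → ∃ th, IsTh w D.e σ θ U th ∧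
      ∀ y, th y = (fw w D.e U)^[d] y := fun d dec => by
    obtain ⟨h1, h2⟩ := noa _ _ T h.ok (Tw.pts_of h.ok T.cf) (mul_row h.ok) ff cen cj O K w D.e D.cmp
      ari σ θ s dec.fix
    obtain ⟨th, t⟩ := h1 U h.lev
    refine ⟨th, t, h2 d (fun V hV nV mV th t => ?_) U h.lev h.neat h.mx th t⟩
    haveI := fun x => (T.cf _ (h.ok.fu V hV x)).1
    exact Ctx.rigb ⟨h.ok, T.cf, T.gen, hV, nV, mV, h.sa, rd V hV nV mV⟩ s ⟨dec.iso, dec.pow⟩ t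
  refine ⟨fun dec => ?_, fun dec => ?_⟩
  · obtain ⟨th, t, e⟩ := main 0 (by rwa [pow_zero])
    exact h.ine s ⟨dec.iso, dec.pow⟩ t e
  · obtain ⟨th, t, e⟩ := main 1 (by rwa [pow_one])
    exact h.fro s ⟨dec.iso, dec.pow⟩ t e

end abstract

theorem cyc_en {p : ℕ} [Fact p.Prime] (k : ℕ) {io : Qb →+* ℂ} {g : GQ} {σ : ℂ ≃+* ℂ}
    (e : Ext io g σ) : σ (en (p ^ k) 1) =
      en _ (PadicInt.toZModPow k (cyclotomicCharacter Qb p g.toRingEquiv).val) := by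
  have hn := pow_pos (Fact.out : p.Prime).pos k
  have : NeZero (p ^ k) := ⟨hn.ne'⟩
  obtain ⟨z, hz⟩ := mem_range_io io (c := en (p ^ k) 1) (IsIntegral.of_pow hn (by
    rw [en_pow hn]
    exact isIntegral_one)).isAlgebraic
  have h1 := cyclotomicCharacter.spec p (n := k) g.toRingEquiv z (io.injective (by
    rw [map_pow, hz, en_pow hn, map_one]))
  rw [← hz, e, show g z = _ from h1, map_pow, hz, ← en_nsmul hn, nsmul_eq_mul, mul_one,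
    ZMod.natCast_zmod_val]

/-- **ORX** from the rows -/
theorem orx_of {F : Type} [Field F] [NumberField F] (X : QD F) (sym : SYM) (ctr : CTR) (noa : NOA)
    (left : X.tw.LEFT) (can : X.CAN) (ari : ARIX X) (rdx : RDX X) : ORX X := by
  intro j io hj H le th hth O K _ _ _ _ _ L w hw p _ P hP hp hb U hU mx c k
  obtain ⟨p', _, D, -, he, -, h0, h1⟩ := emb X (cmpx X) L w hw j io hj P hP hb
  obtain rfl : p = p' := by
    have h2 := (h0 p').1 (by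
      rw [show ((p' : 𝓞 Qb) : Qb) = p' from rfl, map_natCast, map_natCast]
      exact CS.norm_p_lt p')
    have h3 := (int_mem_iff hP.ne_top Fact.out hp p').1 (by rwa [Int.cast_natCast])
    exact (Nat.prime_dvd_prime_iff_eq Fact.out Fact.out).1 (Int.natCast_dvd_natCast.1 h3)
  haveI := fun x => (X.tw.cf _ (X.ok.fu U hU.1 x)).1
  obtain ⟨sa, rd⟩ := rdx O K L w hw p D he
  have h : Ctx D U := ⟨X.ok, X.tw.cf, X.tw.gen, hU.1, hU.2, mx, sa, rd U hU.1 hU.2 mx⟩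
  have hn := pow_pos (Fact.out : p.Prime).pos k
  have ex : ∀ g ∈ GK j, ∀ σ, Ext io g σ → ∃ θ, X.tw.Sl σ θ := fun g hg σ e => can.ex σ (by
    rintro _ ⟨c, rfl⟩
    rw [← hj, RingHom.comp_apply, e, hg])
  have key : ∀ (s : H) Q, 0 < Q → (∀ x : 𝓞 Qb, s.1 • x - x ^ Q ∈ P) →
      ∃ σ θ, ∃ s₁ : X.tw.Sl σ θ, Ext io s σ ∧ Dec D.ι D.e Q σ ∧
        ∀ a a', X.tw.Ga (th s) (p ^ k) U a a' → X.tw.Ga θ (p ^ k) U a a' := fun s Q hQ hs => by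
    obtain ⟨σ, e, dec⟩ := h1 Q hQ s (le s.2) hs
    obtain ⟨θ, s₁⟩ := ex s (le s.2) σ e
    obtain ⟨σ₀, e₀, s₀⟩ := hth s
    exact ⟨σ, θ, s₁, e, dec, (chg X.ok io can.mod (ex 1 (one_mem _)) hU.1 hU.2 s₀ s₁
      fun a => (e₀ a).trans (e a).symm).2 _ hn⟩
  have nf := fun σ θ => ine_fro (σ := σ) (θ := θ) noa (Oc.ff X.ok left) (cenx X) (cjx X)
    (ari (sa_of X rdx) O K L w hw D.e) rd h
  refine orl_lev (ctr _ _ _ _ _ _ _ _ D h) sym k c (fun s hs => ?_) fun s hs => ?_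
  · obtain ⟨σ, θ, s₁, e, dec, t⟩ := key s 1 one_pos fun x => by rw [pow_one]; exact hs x
    exact ⟨σ, θ, s₁, (nf σ θ s₁).1 dec, cyc_en k e, t⟩
  · obtain ⟨σ, θ, s₁, -, dec, t⟩ := key s _ (Nat.pos_of_ne_zero (qq_ne L)) hs
    exact ⟨σ, θ, s₁, (nf σ θ s₁).2 dec, t⟩

end Vale.Agent.P022K.OR
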