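import Vale.Agent.P022K.OR.St0
import Vale.Agent.P027M.G.Brid

/-!
# P022K, block OR: the Weil pairing of two functions which are close to one
-/

set_option linter.all false

noncomputable section

open Polynomial Vale.Agent.P019P P025H373 P025H746 P025H492 P025H816 P027M.K

namespace Vale.Agent.P022K.OR

open Vale.Agent.P027M Vale.Agent.P027M.Gs

namespace Sy

theorem ord_aeval {k F : Type} [Field k] [Field F] [Algebra k F] [CFF k F] {P : Plk k F} {t : F}
    (ht : ord P t = 1) {q : k[X]} (hq : q ≠ 0) :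
    aeval t q ≠ 0 ∧ ord P (aeval t q) ≤ q.natDegree := by
  obtain ⟨q', h1, h2⟩ := exists_eq_pow_rootMultiplicity_mul_and_not_dvd q hq 0
  generalize q.rootMultiplicity 0 = m at h1
  subst h1
  have h0 : t ≠ 0 := by rintro rfl; rw [ord_zero] at ht; exact zero_ne_one ht
  have h3 := (val_aeval (Val.zero_iff.2 (Or.inr ht.ge)) q').unit fun e => h2 (dvd_iff_isRoot.2 e)
  rw [natDegree_mul (left_ne_zero_of_mul hq) (right_ne_zero_of_mul hq), C_0, sub_zero, map_mul,
    map_pow, aeval_X, ord_mul P (pow_ne_zero _ h0) h3.1, h3.2, ord_pow, ht, natDegree_X_pow]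
  exact ⟨mul_ne_zero (pow_ne_zero _ h0) h3.1, by push_cast; omega⟩

theorem alg {ι A : Type} [DecidableEq ι] [AddCommGroup A] (Z : Finset ι) (n : ℤ) (a b : ι → ℤ)
    (l l' : ι → A) (m : ι → ι → A) (σ : A) (b0 : ∑ P ∈ Z, b P = 0)
    (hm : ∀ P ∈ Z, ∀ Q ∈ Z, m Q P - m P Q = if P = Q then 0 else σ) (x : ι → A)
    (hx : ∀ P ∈ Z, x P = (n * a P * b P) • σ + b P • (l P + ∑ Q ∈ Z, (n * a Q) • m P Q) -
      a P • (l' P + ∑ Q ∈ Z, (n * b Q) • m P Q)) :
    ∑ P ∈ Z, x P = ∑ P ∈ Z, (b P • l P - a P • l' P) := by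
  have e2 : ∀ P ∈ Z, (a P * b P) • σ + ∑ Q ∈ Z, (a P * b Q) • (m Q P - m P Q) = 0 := fun P hP => by
    rw [← zero_smul ℤ σ, ← mul_zero (a P), ← b0, Finset.mul_sum, Finset.sum_smul,
      ← Finset.add_sum_erase _ _ hP, ← Finset.add_sum_erase _ _ hP, sub_self, smul_zero, zero_add]
    exact congrArg _ (Finset.sum_congr rfl fun Q hQ => by
      rw [hm P hP Q (Finset.mem_of_mem_erase hQ), if_neg (Finset.ne_of_mem_erase hQ).symm])
  have e3 := Finset.sum_eq_zero e2
  simp only [smul_sub, Finset.sum_sub_distrib, Finset.sum_add_distrib] at e3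
  rw [Finset.sum_comm (f := fun P Q => (a P * b Q) • m Q P), ← Finset.sum_sub_distrib,
    ← Finset.sum_add_distrib] at e3
  rw [← add_zero (∑ P ∈ Z, (b P • l P - a P • l' P)), ← smul_zero n, ← e3, Finset.smul_sum,
    ← Finset.sum_add_distrib]
  refine Finset.sum_congr rfl fun P hP => ?_
  rw [hx P hP]
  simp only [smul_add, smul_sub, Finset.smul_sum, smul_smul]
  rw [Finset.sum_congr rfl fun Q _ => show (b P * (n * a Q)) • m P Q = (n * (a Q * b P)) • m P Q by
      congr 1; ring,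
    Finset.sum_congr rfl fun Q _ => show (a P * (n * b Q)) • m P Q = (n * (a P * b Q)) • m P Q by
      congr 1; ring, mul_assoc]
  abel

variable {C K : Type} [NontriviallyNormedField C] [IsUltrametricDist C] [IsAlgClosed C]
  [Field K] [Algebra C K] [CFF C K] {v : NV C K} {T : K} [CFF (kC C) (kap v)]
  {s : Plk C K → Plk (kC C) (kap v)} {z : Plk (kC C) (kap v)} {t : K} {r : ℝ}

variable (C) in
/-- the units which are close to one -/
def Hr (h0 : 0 ≤ r) (h1 : r < 1) : AddSubgroup (Additive Cˣ) where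
  carrier := {a | ‖((a.toMul : Cˣ) : C) - 1‖ ≤ r}
  zero_mem' := by simpa using h0
  add_mem' {a b} ha hb := by
    have h2 : ‖((b.toMul : Cˣ) : C)‖ ≤ 1 := by
      simpa using norm_sub_le' (hb.trans h1.le) (show ‖(-1 : C)‖ ≤ 1 by simp)
    change ‖((a.toMul * b.toMul : Cˣ) : C) - 1‖ ≤ r
    rw [Units.val_mul, show ∀ x y : C, x * y - 1 = (x - 1) * y - -(y - 1) from fun x y => by ring]
    refine norm_sub_le' ?_ (by rwa [norm_neg])
    rw [norm_mul]
    exact (mul_le_of_le_one_right (norm_nonneg _) h2).trans ha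
  neg_mem' {a} ha := by
    have h2 : 1 ≤ ‖((a.toMul : Cˣ) : C)‖ := not_lt.1 fun e => by
      have := norm_sub_le' (le_max_left _ r) (le_trans ha (le_max_right ‖((a.toMul : Cˣ) : C)‖ r))
      rw [sub_sub_cancel, norm_one] at this
      exact absurd this (not_le.2 (max_lt e h1))
    change ‖((a.toMul⁻¹ : Cˣ) : C) - 1‖ ≤ r
    rw [Units.val_inv_eq_inv_val, inv_eq_one_div, div_sub_one a.toMul.ne_zero, norm_div,
      norm_sub_rev]
    exact (div_le_self (norm_nonneg _) h2).trans ha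

/-- the maximum principle -/
theorem val_le (hs : IsSp v s) (h : Gd v T) {x : K} {Q : Plk C K} (hx : ∀ R, s R = s Q → x ∈ R.1)
    {c : C} (hc : Val Q x c) : ‖c‖ ≤ v x := by
  by_cases h0 : x = 0
  · subst h0
    rw [hc.unique (Val.zero_iff.2 (zero_mem _)), norm_zero, map_zero]
  obtain ⟨b, hb0, hb⟩ := h.toFull.scale h0
  have h1 := (hs.val hb.le (fun R hR => by
    rw [Algebra.smul_def]; exact mul_mem (R.2.1 _) (hx R hR)) (c := b * c) (by
    rw [Algebra.smul_def]; exact (Val.const Q b).mul hc)).1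
  rw [w_smul] at hb
  rw [norm_mul, ← hb] at h1
  exact le_of_mul_le_mul_left h1 (norm_pos_iff.2 hb0)

/-- `t` is a parameter of the class of `z` -/
structure Pa (s : Plk C K → Plk (kC C) (kap v)) (z : Plk (kC C) (kap v)) (t : K) : Prop where
  one : v t = 1
  od : ord z (v.red t) = 1
  reg : ∀ R, s R = z → t ∈ R.1

theorem Pa.cls (H : Pa s z t) (hs : IsSp v s) {P : Plk C K} (hP : s P = z)
    [DecidableEq (Plk C K)] : v (t - algebraMap C K (vl P t)) = 1 ∧
      v.red (t - algebraMap C K (vl P t)) = v.red t ∧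
      ∀ Q, s Q = z → ord Q (t - algebraMap C K (vl P t)) = if Q = P then 1 else 0 := by
  have h5 := val_vl (ord_nn (H.reg P hP))
  have h6 := hs.val H.one.le (fun R e => H.reg R (e.trans hP)) h5
  have h7 : ‖vl P t‖ < 1 := by
    rw [← cred_eq_zero h6.1]
    exact h6.2.unique (Val.zero_iff.2 (Or.inr (by rw [hP, H.od])))
  have h8 := red_sub_lt H.one h7
  refine ⟨h8.1, h8.2, fun Q e => ?_⟩
  rw [← dv_apply]
  exact cls_one (fun R e' => by rw [dv_apply]; exact ord_nn (sub_mem (H.reg R e') (R.2.1 _)))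
    (by rw [← hs.ord h8.1, h8.2, H.od]) hP
    (by rw [dv_apply]; exact val_zero_pos (val_sub_self h5) (ne_of_w h8.1)) e

theorem Pa.near (H : Pa s z t) (hs : IsSp v s) (h : Gd v T) {x y : K} {d : ℕ} {D : C[X]}
    (hx : ∀ R, s R = z → x ∈ R.1) (hy : v y = 1) (hy' : v.red y = v.red t ^ d)
    (hD : D.degree < d) (he : v (x * y + aeval t D) ≤ r) : v x ≤ r := by
  by_contra hc
  push Not at hc
  have h0 : x ≠ 0 := by
    rintro rfl
    rw [map_zero] at hc
    exact absurd ((v.av.nonneg _).trans he) (not_le.2 hc)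
  obtain ⟨b, hb0, hb⟩ := h.toFull.scale h0
  have h1 : v (b • (x * y + aeval t D)) < 1 := by
    rw [← hb, w_smul, w_smul]
    exact mul_lt_mul_of_pos_left (he.trans_lt hc) (norm_pos_iff.2 hb0)
  have h2 : v (b • x * y) ≤ 1 := NV.mul_le_one hb.le hy.le
  have e : aeval t (b • D) = b • (x * y + aeval t D) - b • x * y := by
    rw [map_smul, smul_add, smul_mul_assoc, add_sub_cancel_left]
  have ht0 := NV.red_ne_zero H.one
  have h3 : v.red (aeval t (b • D)) = -(v.red (b • x) * v.red t ^ d) := by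
    rw [e, NV.red_sub h1.le h2, NV.red_of_lt h1, zero_sub, NV.red_mul hb.le hy.le, hy']
  have hT : v.OverG t := G.overG_of_transc H.one.le
    (transcendental_iff.2 fun q hq => by_contra fun h0 => (ord_aeval H.od h0).1 hq)
  have h4 : gp (b • D) ≤ 1 := by rw [← hT, e]; exact NV.sub_le h1.le h2
  have h5 : pred (b • D) ≠ 0 := fun e0 => by
    rw [NV.red_aeval H.one.le h4, e0, map_zero, eq_comm, neg_eq_zero] at h3
    exact mul_ne_zero (NV.red_ne_zero hb) (pow_ne_zero _ ht0) h3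
  have h6 := (ord_aeval H.od h5).2
  have h7 : (pred (b • D)).natDegree < d := by
    rw [natDegree_lt_iff_degree_lt h5, degree_lt_iff_coeff_zero]
    intro m hm
    rw [coeff_pred, coeff_smul, (degree_lt_iff_coeff_zero _ _).1 hD m hm, smul_zero, cred_zero]
  have h8 := ord_nn (hs.mem hb.le (P := z) fun R hR => by
    rw [Algebra.smul_def]; exact mul_mem (R.2.1 _) (hx R hR))
  rw [← NV.red_aeval H.one.le h4, h3, ord_neg, ord_mul z (NV.red_ne_zero hb) (pow_ne_zero _ ht0),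
    ord_pow, H.od] at h6
  omega

theorem Pa.unit (H : Pa s z t) (hs : IsSp v s) (h : Gd v T) (hr : r < 1) {Z : Finset (Plk C K)}
    (hZ : ∀ P ∈ Z, s P = z) {f : K} (hf : v (f - 1) ≤ r)
    (hfZ : ∀ P, s P = z → P ∉ Z → ord P f = 0) : ∑ P ∈ Z, ord P f = 0 ∧ ∀ U : K,
      U * ∏ P ∈ Z, (t - algebraMap C K (vl P t)) ^ ord P f = f → ∀ P, s P = z →
        ∃ c, Val P U c ∧ ‖c - 1‖ ≤ r := by
  classical
  have hf1 : v f ≤ 1 := by simpa using NV.add_le (hf.trans hr.le) (show v 1 ≤ 1 by simp)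
  have hf2 : v.red f = 1 := by
    rw [← NV.red_one (w := v), ← sub_eq_zero, ← NV.red_sub hf1 (by simp)]
    exact NV.red_of_lt (hf.trans_lt hr)
  have hf3 := w_eq_one hf1 (hf2 ▸ one_ne_zero)
  have h0 : ∑ P ∈ Z, ord P f = 0 := by
    have h1 := hs.ord hf3 z
    rw [hf2, ord_one, mapDomain_apply'] at h1
    rw [h1, eq_comm]
    refine (Finset.sum_subset (fun P hP => ?_) fun P hP hP' => ?_).trans
      (Finset.sum_congr rfl fun P _ => dv_apply _ _)
    · rw [Finset.mem_filter, Finsupp.mem_support_iff, dv_apply] at hP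
      exact by_contra fun e => hP.1 (hfZ P hP.2 e)
    · exact by_contra fun e => hP' (Finset.mem_filter.2 ⟨Finsupp.mem_support_iff.2 e, hZ P hP⟩)
  refine ⟨h0, fun U hU P hP => ?_⟩
  have hu := fun Q (hQ : Q ∈ Z) => H.cls hs (hZ Q hQ)
  have hu0 : ∀ Q ∈ Z, t - algebraMap C K (vl Q t) ≠ 0 := fun Q hQ => ne_of_w (hu Q hQ).1
  have hreg : ∀ R, s R = z → U ∈ R.1 := fun R hR => by
    have h1 := congrArg (ord R) hU
    have h2 : ∀ Q ∈ Z, (t - algebraMap C K (vl Q t)) ^ ord Q f ≠ 0 := fun Q hQ =>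
      zpow_ne_zero _ (hu0 Q hQ)
    rw [ord_mul R (left_ne_zero_of_mul (hU ▸ ne_of_w hf3)) (Finset.prod_ne_zero_iff.2 h2),
      ord_prod R Z _ h2, Finset.sum_congr rfl fun Q hQ => by
        rw [ord_zpow, (hu Q hQ).2.2 R hR, mul_ite, mul_one, mul_zero], Finset.sum_ite_eq] at h1
    refine mem_of_ord ?_
    split_ifs at h1 with e
    · omega
    · rw [hfZ R hR e] at h1; omega
  let p : (Plk C K → ℕ) → C[X] := fun m => ∏ Q ∈ Z, (X - Polynomial.C (vl Q t)) ^ m Q
  have p1 : ∀ m, (p m).Monic := fun m => monic_prod_of_monic _ _ fun Q _ => (monic_X_sub_C _).pow _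
  have p2 : ∀ m, (p m).natDegree = ∑ Q ∈ Z, m Q := fun m => by
    rw [natDegree_prod_of_monic _ _ fun Q _ => (monic_X_sub_C _).pow _]
    simp
  have p3 : ∀ m, aeval t (p m) = ∏ Q ∈ Z, (t - algebraMap C K (vl Q t)) ^ m Q := fun m => by
    simp [p]
  have p4 : ∀ m, v (aeval t (p m)) = 1 := fun m => by
    rw [p3, map_prod]
    exact Finset.prod_eq_one fun Q hQ => by rw [map_pow, (hu Q hQ).1, one_pow]
  have p5 : ∀ m, v.red (aeval t (p m)) = v.red t ^ ∑ Q ∈ Z, m Q := fun m => by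
    rw [p3, (red_prod Z fun Q hQ => NV.pow_le_one' (hu Q hQ).1.le _).2, ← Finset.prod_pow_eq_pow_sum]
    exact Finset.prod_congr rfl fun Q hQ => by rw [NV.red_pow (hu Q hQ).1.le, (hu Q hQ).2.1]
  let a : Plk C K → ℕ := fun Q => (ord Q f).toNat
  let b : Plk C K → ℕ := fun Q => (-ord Q f).toNat
  have hab : ∑ Q ∈ Z, a Q = ∑ Q ∈ Z, b Q := by
    have : (∑ Q ∈ Z, a Q : ℕ) - (∑ Q ∈ Z, b Q : ℕ) = ∑ Q ∈ Z, ord Q f := by
      rw [Nat.cast_sum, Nat.cast_sum, ← Finset.sum_sub_distrib]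
      exact Finset.sum_congr rfl fun Q _ => Int.toNat_sub_toNat_neg _
    omega
  have e1 : U * aeval t (p a) = f * aeval t (p b) := by
    rw [p3, p3, ← hU, mul_assoc, ← Finset.prod_mul_distrib]
    refine congrArg _ (Finset.prod_congr rfl fun Q hQ => ?_)
    rw [← zpow_natCast, ← zpow_natCast, ← zpow_add₀ (hu0 Q hQ)]
    exact congrArg _ (sub_eq_iff_eq_add.1 (Int.toNat_sub_toNat_neg _))
  have h1 : v (U - 1) ≤ r := H.near hs h (fun R hR => sub_mem (hreg R hR) (one_mem _)) (p4 a) (p5 a)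
    (D := p a - p b) (by
      rw [← p2, ← degree_eq_natDegree (p1 a).ne_zero]
      exact degree_sub_lt (by rw [degree_eq_natDegree (p1 a).ne_zero,
        degree_eq_natDegree (p1 b).ne_zero, p2, p2, hab]) (p1 a).ne_zero ((p1 a).trans (p1 b).symm))
    (by
      rw [map_sub, show (U - 1) * aeval t (p a) + (aeval t (p a) - aeval t (p b)) =
        (f - 1) * aeval t (p b) by linear_combination e1, map_mul, p4, mul_one]
      exact hf)
  obtain ⟨c, hc⟩ := val_of_mem (hreg P hP)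
  exact ⟨c, hc, (val_le hs h (fun R hR => sub_mem (hreg R (hR.trans hP)) (one_mem _))
    (hc.sub (Val.one P))).trans h1⟩

/-- the contribution of one residue class -/
theorem Pa.sum (H : Pa s z t) (hs : IsSp v s) (h : Gd v T) (h0 : 0 ≤ r) (hr : r < 1)
    {Z : Finset (Plk C K)} (hZ : ∀ P ∈ Z, s P = z) {n : ℕ} (hn : n ≠ 0) {f g : Kˣ}
    (hf : f ∈ divU C K n) (hg : g ∈ divU C K n) (hf1 : v ((f : K) - 1) ≤ r)
    (hg1 : v ((g : K) - 1) ≤ r)
    (hfZ : ∀ P, s P = z → P ∉ Z → ord P (f : K) = 0 ∧ ord P (g : K) = 0) :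
    ∑ P ∈ Z, w n P f g ∈ Hr C h0 hr := by
  classical
  have hnc : ∀ c : C, t - algebraMap C K c ≠ 0 := fun c e => by
    have h1 := H.od
    have h2 := H.one
    rw [sub_eq_zero.1 e] at h1 h2
    rw [NV.red_algebraMap (by rw [← w_const (w := v)]; exact h2.le), ord_const] at h1
    exact zero_ne_one h1
  let u : Plk C K → Kˣ := fun P => Units.mk0 _ (hnc (vl P t))
  have hn' : (n : ℤ) ≠ 0 := by exact_mod_cast hn
  have key : ∀ f ∈ divU C K n, v ((f : K) - 1) ≤ r → (∀ P, s P = z → P ∉ Z → ord P (f : K) = 0) →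
      ∃ (a : Plk C K → ℤ) (l : Plk C K → Additive Cˣ), ∑ P ∈ Z, a P = 0 ∧ ∀ P ∈ Z,
        ord P (f : K) = n * a P ∧ l P ∈ Hr C h0 hr ∧
        lc P f = l P + ∑ Q ∈ Z, (n * a Q) • lc P (u Q) := fun f hf hf1 hfZ => by
    choose a ha using hf
    obtain ⟨h1, h2⟩ := H.unit hs h hr hZ hf1 hfZ
    refine ⟨a, fun P => lc P (f / ∏ Q ∈ Z, u Q ^ ord Q (f : K)), ?_, fun P hP => ⟨ha P, ?_, ?_⟩⟩
    · simp only [ha, ← Finset.mul_sum] at h1
      exact (mul_eq_zero.1 h1).resolve_left hn'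
    · obtain ⟨c, h3, h4⟩ := h2 ((f / ∏ Q ∈ Z, u Q ^ ord Q (f : K) : Kˣ) : K) (by
        simp [u, div_mul_cancel₀ _ (Finset.prod_ne_zero_iff.2 fun Q (_ : Q ∈ Z) =>
          zpow_ne_zero (ord Q (f : K)) (hnc (vl Q t)))]) P (hZ P hP)
      have h5 : c ≠ 0 := by
        rintro rfl
        rw [zero_sub, norm_neg, norm_one] at h4
        exact absurd h4 (not_le.2 hr)
      beta_reduce
      rw [lc_eq (c := Units.mk0 c h5) h3]
      exact h4
    · simp only [lc_div, lc_prod, lc_zpow, ha, sub_add_cancel]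
  obtain ⟨a, l, a0, ha⟩ := key f hf hf1 fun P e e' => (hfZ P e e').1
  obtain ⟨b, l', b0, hb⟩ := key g hg hg1 fun P e e' => (hfZ P e e').2
  have hsg : ∀ P ∈ Z, ∀ Q ∈ Z, lc Q (u P) - lc P (u Q) = if P = Q then 0 else sg C := by
    intro P hP Q hQ
    split_ifs with e
    · rw [e, sub_self]
    have hv : ∀ P ∈ Z, ∀ Q : Plk C K, Val P (u Q : K) (vl P t - vl Q t) := fun P hP Q =>
      (val_vl (ord_nn (H.reg P (hZ P hP)))).sub (Val.const P _)
    have h1 : vl P t - vl Q t ≠ 0 := (hv P hP Q).ne_zero (u Q).ne_zero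
      (((H.cls hs (hZ Q hQ)).2.2 P (hZ P hP)).trans (if_neg e))
    rw [lc_eq (c := Units.mk0 _ h1) (hv P hP Q), lc_eq (c := -1 * Units.mk0 _ h1)
      (by simpa using hv Q hQ P), ofMul_mul, add_sub_cancel_right, sg]
  rw [alg Z n a b l l' (fun P Q => lc P (u Q)) (sg C) b0 hsg _ fun P hP => by
    rw [w_eq hn (ha P hP).1 (hb P hP).1, (ha P hP).2.2, (hb P hP).2.2]]
  exact sum_mem fun P hP => sub_mem (zsmul_mem (ha P hP).2.1 _) (zsmul_mem (hb P hP).2.1 _)

end Sy

/-- **SYM** -/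
theorem sym : SYM := by
  classical
  intro C K _ _ _ _ _ _ v S h n hn f hf g hg r hr hf1 hg1
  haveI := h.cff
  obtain ⟨s, hs⟩ := h.gd.exists_sp
  have h0 : 0 ≤ r := (v.av.nonneg _).trans hf1
  have h1 : ∀ P, P ∉ (dv C (f : K)).support ∪ (dv C (g : K)).support →
      ord P (f : K) = 0 ∧ ord P (g : K) = 0 := fun P hP => by
    rw [Finset.mem_union, not_or] at hP
    exact ⟨ord_of_notMem hP.1, ord_of_notMem hP.2⟩
  change e C n f g ∈ Sy.Hr C h0 hr
  rw [e_eq_sum n h1, ← Finset.sum_fiberwise_of_maps_to (g := s) fun P hP =>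
    Finset.mem_image_of_mem s hP]
  refine sum_mem fun z hz => ?_
  obtain ⟨Q, -, rfl⟩ := Finset.mem_image.1 hz
  obtain ⟨t, t1, t2, t3, -⟩ := hs.param h.gd Q
  exact Sy.Pa.sum ⟨t1, t2, t3⟩ hs h.gd h0 hr (fun P hP => (Finset.mem_filter.1 hP).2) hn hf hg hf1
    hg1 fun P e e' => h1 P fun e'' => e' (Finset.mem_filter.2 ⟨e'', e⟩)

end Vale.Agent.P022K.OR
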