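import Vale.Agent.P022K.OR.Site
import Vale.Agent.P022K.Top.Ram
import Vale.Agent.P022K.Top.Wn
import Vale.Agent.P022K.F0.Can

/-!
# P022K, block OR: row ORX2
-/

set_option autoImplicit false

noncomputable section

namespace Vale.Agent.P022K.Top

open Sh

/-- **row ORX2** -/
theorem orx2 (orx : AllQ fun X => OR.ORX X) : ORX2 :=
  fun _ _ _ Y D O _ _ _ _ h hp hf => D.orl0 h (can _ Y) (orx _ Y) O hp hf (D.ram h O hp hf)

end Vale.Agent.P022K.Top
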