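import Vale.Agent.P022K.OR.Orx
import Vale.Agent.P022K.OR.Ctr
import Vale.Agent.P022K.OR.Sym
import Vale.Agent.P022K.OR.Fg
import Vale.Agent.P022K.OR.Orl
import Vale.Agent.P022K.FI.As2

/-!
# P022K, block OR: assembly
-/

set_option autoImplicit false

namespace Vale.Agent.P022K.OR

open Sh FI

/-- **ORX** -/
theorem orx : AllQ fun X => ORX X := fun F _ _ X =>
  orx_of X sym (ctr fg) noa (left _ _ _ X.ok) (can F X) (arix X) (rdx X)

/-- **ORX2** -/
theorem orxC : Top.ORX2 := Top.orx2 orx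

end Vale.Agent.P022K.OR
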