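import Vale.Agent.P022K.OR.Con0
import Vale.Agent.P022K.FI.Hk3

/-!
# P022K, block OR: functions which are close to one
-/

set_option autoImplicit false
set_option linter.all false

noncomputable section

namespace Vale.Agent.P022K.OR

open Vale.Agent.P022K.Sh Vale.Agent.P022K.FI Vale.Agent.P022K.FI.Hk Vale.Agent.P022.H218.L3
  Vale.Agent.P019P P025H816 P025H746 P027M.K

section

variable {G0 G : Type} [Group G0] [Group G] {T : Tw G0 G} {U : Subgroup G}
  {O K : Type} [CommRing O] [IsDomain O] [IsDiscreteValuationRing O] [Field K] [Algebra O K]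
  {w : T.Lc O K} {p : ℕ} [Fact p.Prime] [∀ x, CFF ℂ (KX T U x)] {D : Emb w p} (h : Ctx D U)

/-- `u` is close to one on every component -/
def Cl (r : ℝ) (u : T.RU U) : Prop := ∀ x, h.nv x (u - 1) ≤ r

/-- the norm of the correspondence -/
def hpM : T.RU U →* T.RU U where
  toFun := h.hpR
  map_one' := Subtype.ext (by
    change hp (w.To U) U 1 = 1
    rw [hp_eq (cor_To h.lev h.mx)]
    exact Finset.prod_eq_one fun _ _ => rfl)
  map_mul' a b := Subtype.ext (by
    change hp (w.To U) U (a.1 * b.1) = hp (w.To U) U a.1 * hp (w.To U) U b.1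
    simp only [hp_eq (cor_To h.lev h.mx), ← Finset.prod_mul_distrib]
    rfl)

end

/-- **CTR**: the correspondence contracts the functions which are close to one -/
def CTR : Prop := ∀ (G0 G : Type) [Group G0] [Group G] (T : Tw G0 G) (U : Subgroup G) (O K : Type)
  [CommRing O] [IsDomain O] [IsDiscreteValuationRing O] [Field K] [Algebra O K] (w : T.Lc O K)
  (p : ℕ) [Fact p.Prime] [∀ x, CFF ℂ (KX T U x)] (D : Emb w p) (h : Ctx D U),
  Ctr (hpM h) (Cl h) (qq O) ‖(p : Cx D.ι)‖

end Vale.Agent.P022K.OR
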