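import Vale.Agent.P022K.OR.St0

/-!
# P022K, block OR: uniform estimates and the iteration
-/

set_option autoImplicit false
set_option linter.all false

open Vale.Agent.P019P P025H746 P025H816 P027M.K

namespace Vale.Agent.P022K.OR

section iter

variable {M : Type} [CommMonoid M] (T : M →* M) (Cl : ℝ → M → Prop) (q : ℕ) (π : ℝ)

/-- a contracting operator -/
structure Ctr : Prop where
  pos : 0 < π
  lt : π < 1
  one : ∀ r, 0 ≤ r → Cl r 1
  mono : ∀ r r' u, r ≤ r' → Cl r u → Cl r' u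
  mul : ∀ r u v, r < 1 → Cl r u → Cl r v → Cl r (u * v)
  map : ∀ r u, r < 1 → Cl r u → Cl r (T u)
  con : ∀ r, r < 1 → ∃ ρ r₁ t : ℝ, 0 ≤ ρ ∧ ρ < 1 ∧ 0 ≤ r₁ ∧ r₁ < 1 ∧ 0 < t ∧ t < π ∧
    ∀ r', 0 < r' → r' ≤ r → ∀ u, Cl r' u →
      ∃ y u', T u = y ^ q * u' ∧ Cl r₁ y ∧ Cl (max (ρ * r') t) u'

variable {T Cl q π}

theorem Ctr.pow (h : Ctr T Cl q π) {r : ℝ} {u : M} (h0 : 0 ≤ r) (hr : r < 1) (hu : Cl r u) (n : ℕ) :
    Cl r (u ^ n) := by
  induction n with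
  | zero => rw [pow_zero]; exact h.one r h0
  | succ n ih => rw [pow_succ]; exact h.mul r _ _ hr ih hu

theorem Ctr.iter (h : Ctr T Cl q π) {r : ℝ} {u : M} (hr : r < 1) (hu : Cl r u) (n : ℕ) :
    Cl r (T^[n] u) := by
  induction n with
  | zero => exact hu
  | succ n ih => rw [Function.iterate_succ_apply']; exact h.map r _ hr ih

theorem Ctr.step (h : Ctr T Cl q π) {r : ℝ} (hr : r < 1) : ∃ (A : ℕ) (r₁ t : ℝ), r₁ < 1 ∧ 0 ≤ t ∧
    t < π ∧ ∀ u, Cl r u → ∃ y u', T^[A] u = y ^ q * u' ∧ Cl r₁ y ∧ Cl t u' := by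
  wlog h1 : π ≤ r generalizing r
  · obtain ⟨A, r₁, t, h2, h3, h4, h5⟩ := this h.lt le_rfl
    exact ⟨A, r₁, t, h2, h3, h4, fun u hu => h5 u (h.mono _ _ _ (not_le.1 h1).le hu)⟩
  obtain ⟨ρ, r₁, t, ρ0, ρ1, r0, r1, t0, t1, c⟩ := h.con r hr
  have r2 := h.pos.trans_le h1
  obtain ⟨A, hA⟩ := exists_pow_lt_of_lt_one h.pos ρ1
  refine ⟨A, r₁, max (ρ ^ A * r) t, r1, le_max_of_le_right t0.le, max_lt
    ((mul_le_of_le_one_right (pow_nonneg ρ0 A) hr.le).trans_lt hA) t1, fun u hu => ?_⟩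
  clear hA
  induction A with
  | zero => exact ⟨1, u, by simp, h.one _ r0, h.mono _ _ _ (by simp) hu⟩
  | succ A ih =>
    obtain ⟨y, u', e, h2, h3⟩ := ih
    obtain ⟨y', u'', e', h4, h5⟩ := c _ (lt_max_of_lt_right t0) (max_le
      (mul_le_of_le_one_left r2.le (pow_le_one₀ ρ0 ρ1.le)) (t1.le.trans h1)) u' h3
    refine ⟨T y * y', u'', ?_, h.mul _ _ _ r1 (h.map _ _ r1 h2) h4, h.mono _ _ _ ?_ h5⟩
    · rw [Function.iterate_succ_apply', e, map_mul, map_pow, e', mul_pow, mul_assoc]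
    · rw [mul_max_of_nonneg _ _ ρ0, ← mul_assoc, ← pow_succ', max_assoc,
        max_eq_right (mul_le_of_le_one_left t0.le ρ1.le)]

theorem Ctr.all (h : Ctr T Cl q π) (k : ℕ) {r : ℝ} (hr : r < 1) : ∃ (A : ℕ) (r₁ t : ℝ), r₁ < 1 ∧
    0 ≤ t ∧ t < π ∧ ∀ u, Cl r u → ∃ y u', T^[A] u = y ^ q ^ k * u' ∧ Cl r₁ y ∧ Cl t u' := by
  induction k generalizing r with
  | zero => exact ⟨0, r, 0, hr, le_rfl, h.pos, fun u hu => ⟨u, 1, by simp, hu, h.one 0 le_rfl⟩⟩
  | succ k ih =>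
    obtain ⟨A, r₁, t, h1, h2, h3, h4⟩ := h.step hr
    obtain ⟨A', r₂, t', h5, h6, h7, h8⟩ := ih h1
    have h9 := (max_lt h3 h7).trans h.lt
    refine ⟨A' + A, r₂, max t t', h5, le_max_of_le_left h2, max_lt h3 h7, fun u hu => ?_⟩
    obtain ⟨y, u₁, e, k1, k2⟩ := h4 u hu
    obtain ⟨z, u₂, e', k3, k4⟩ := h8 y k1
    refine ⟨z, u₂ ^ q * T^[A'] u₁, ?_, k3, h.mul _ _ _ h9 (h.pow (le_max_of_le_left h2) h9
      (h.mono _ _ _ (le_max_right _ _) k4) q) (h.iter h9 (h.mono _ _ _ (le_max_left _ _) k2) _)⟩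
    rw [Function.iterate_add_apply, e, iterate_map_mul, iterate_map_pow, e', mul_pow, ← pow_mul,
      ← pow_succ, mul_assoc]

end iter

section val

variable {C K L : Type} [NontriviallyNormedField C] [IsUltrametricDist C] [IsAlgClosed C]
  [Field K] [Algebra C K] [Field L] [Algebra C L] {v : NV C L} {x y x' y' : L} {r : ℝ}

theorem mul_le' (hx : v x ≤ r) (hy : v y ≤ 1) : v (x * y) ≤ r := by
  rw [map_mul]
  exact (mul_le_of_le_one_right (v.av.nonneg _) hy).trans hx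

theorem mul_sub_mul (h : v (x - x') ≤ r) (h' : v (y - y') ≤ r) (hy : v y ≤ 1) (hx : v x' ≤ 1) :
    v (x * y - x' * y') ≤ r := by
  rw [show x * y - x' * y' = (x - x') * y + (y - y') * x' by ring]
  exact NV.add_le (mul_le' h hy) (mul_le' h' hx)

theorem le_one_of (h : v (x - y) ≤ 1) (hy : v y ≤ 1) : v x ≤ 1 := by
  have := NV.add_le h hy
  rwa [sub_add_cancel] at this

theorem eq_one_of (h : v (x - y) < 1) (hy : v y = 1) : v x = 1 := by
  refine (le_one_of h.le hy.le).antisymm (not_lt.1 fun c => ?_)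
  have := NV.sub_lt c h
  rw [sub_sub_cancel, hy] at this
  exact lt_irrefl _ this

theorem inv_sub_inv' (h : v (x - y) ≤ r) (hx : v x = 1) (hy : v y = 1) : v (x⁻¹ - y⁻¹) ≤ r := by
  rw [inv_sub_inv (P027M.Gs.ne_of_w hx) (P027M.Gs.ne_of_w hy), map_div₀, map_mul, hx, hy, mul_one,
    div_one, ← NV.map_neg', neg_sub]
  exact h

theorem prod_sub_prod {ι : Type} (s : Finset ι) {f g : ι → L} (h0 : 0 ≤ r)
    (h : ∀ i, v (f i - g i) ≤ r) (hf : ∀ i, v (f i) ≤ 1) (hg : ∀ i, v (g i) ≤ 1) :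
    v (∏ i ∈ s, f i - ∏ i ∈ s, g i) ≤ r := by
  classical
  induction s using Finset.induction_on with
  | empty => simpa using h0
  | insert a s ha ih =>
    rw [Finset.prod_insert ha, Finset.prod_insert ha]
    exact mul_sub_mul (h a) ih (P027M.Gs.red_prod s fun i _ => hf i).1 (hg a)

theorem add_pow_le {p : ℕ} (hp : p.Prime) (n : ℕ) (hx : v x ≤ 1) (hy : v y ≤ 1) :
    v ((x + y) ^ p ^ n - (x ^ p ^ n + y ^ p ^ n)) ≤ ‖(p : C)‖ * v y := by
  obtain ⟨z, hz⟩ := exists_add_pow_prime_pow_eq hp (⟨x, hx⟩ : v.ring) ⟨y, hy⟩ n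
  have e : (x + y) ^ p ^ n = x ^ p ^ n + y ^ p ^ n + p * x * y * z := by
    simpa using congrArg Subtype.val hz
  rw [e, add_sub_cancel_left, show (p : L) * x * y * z = p * y * (x * z) by ring]
  refine mul_le' ?_ (NV.mul_le_one hx z.2)
  rw [map_mul, ← map_natCast (algebraMap C L), v.ext']

theorem ex_bd {ι : Type} (s : Finset ι) (f : ι → ℝ) (h : ∀ i ∈ s, f i < 1) {b : ℝ} (hb : b < 1) :
    ∃ ρ, b ≤ ρ ∧ ρ < 1 ∧ ∀ i ∈ s, f i ≤ ρ :=
  ⟨s.fold max b f, (Finset.le_fold_max _).2 (Or.inl le_rfl), (Finset.fold_max_lt _).2 ⟨hb, h⟩,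
    fun i hi => (Finset.le_fold_max _).2 (Or.inr ⟨i, hi, le_rfl⟩)⟩

variable [CFF C K] {w : NV C K} {S : K} (fg : FG) (hw : P027M.G.Good w S) (α : K →+* L)
  (hα : ∀ f, v (α f) = w f) (hc : ∀ c, α (algebraMap C K c) = algebraMap C L c)

include fg hw hα hc

/-- two embeddings with the same reduction are uniformly close -/
theorem two_emb (β : K →+* L) (hc' : ∀ c, β (algebraMap C K c) = algebraMap C L c)
    (h : ∀ f, w f ≤ 1 → v (β f - α f) < 1) :
    ∃ ρ, 0 ≤ ρ ∧ ρ < 1 ∧ ∀ f, w f ≤ 1 → v (β f - α f) ≤ ρ := by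
  obtain ⟨A, h1, h2⟩ := fg C K w S hw
  obtain ⟨ρ, h3, h4, h5⟩ := ex_bd A (fun f => v (β f - α f)) (fun f hf => h f (h1 f hf)) one_pos
  let B : Subring K :=
    { carrier := {f | w f ≤ 1 ∧ v (β f - α f) ≤ ρ}
      mul_mem' := fun {a b} ha hb => ⟨NV.mul_le_one ha.1 hb.1, by
        rw [map_mul, map_mul]
        exact mul_sub_mul ha.2 hb.2 (le_one_of (hb.2.trans h4.le) ((hα b).trans_le hb.1))
          ((hα a).trans_le ha.1)⟩
      one_mem' := ⟨by simp, by simpa using h3⟩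
      add_mem' := fun {a b} ha hb => ⟨NV.add_le ha.1 hb.1, by
        rw [map_add, map_add, add_sub_add_comm]
        exact NV.add_le ha.2 hb.2⟩
      zero_mem' := ⟨by simp, by simpa using h3⟩
      neg_mem' := fun {a} ha => ⟨(NV.map_neg' a).trans_le ha.1, by
        rw [map_neg, map_neg, neg_sub_neg, ← NV.map_neg', neg_sub]
        exact ha.2⟩ }
  refine ⟨ρ, h3, h4, fun f hf => (h2 B (fun c hc₀ => ⟨(w.ext' c).trans_le hc₀, ?_⟩)
    (fun b hb e => ⟨by rw [map_inv₀, e, inv_one], ?_⟩) (fun a ha => ⟨h1 a ha, h5 a ha⟩) f hf).2⟩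
  · rw [hc, hc', sub_self, map_zero]
    exact h3
  · rw [map_inv₀, map_inv₀]
    exact inv_sub_inv' hb.2 (eq_one_of (hb.2.trans_lt h4) ((hα b).trans e)) ((hα b).trans e)

/-- uniform approximation by powers -/
theorem pow_emb {p : ℕ} (hp : p.Prime) (h1 : ‖(p : C)‖ < 1) (n : ℕ) (E : Subfield L)
    (hE : ∀ c, algebraMap C L c ∈ E) (h : ∀ f, w f ≤ 1 → ∃ g ∈ E, v (α f - g ^ p ^ n) < 1) :
    ∃ ρ, 0 ≤ ρ ∧ ρ < 1 ∧ ∀ f, w f ≤ 1 → ∃ g ∈ E, v g ≤ 1 ∧ v (α f - g ^ p ^ n) ≤ ρ := by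
  obtain ⟨A, h2, h3⟩ := fg C K w S hw
  choose! g g1 g2 using h
  have q0 := pow_ne_zero n hp.ne_zero
  obtain ⟨ρ, h4, h5, h6⟩ := ex_bd A (fun f => v (α f - g f ^ p ^ n)) (fun f hf => g2 f (h2 f hf)) h1
  have h7 := (norm_nonneg _).trans h4
  let Q : K → Prop := fun f => w f ≤ 1 ∧ ∃ g ∈ E, v g ≤ 1 ∧ v (α f - g ^ p ^ n) ≤ ρ
  have cst : ∀ c : C, ‖c‖ ≤ 1 → Q (algebraMap C K c) := fun c hc₀ => by
    obtain ⟨d, rfl⟩ := IsAlgClosed.exists_pow_nat_eq c (Nat.pos_of_ne_zero q0)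
    refine ⟨(w.ext' _).trans_le hc₀, _, hE d, ?_, ?_⟩
    · rwa [v.ext', ← pow_le_one_iff_of_nonneg (norm_nonneg _) q0, ← norm_pow]
    · rw [hc, map_pow, sub_self, map_zero]
      exact h7
  have mul : ∀ a b, Q a → Q b → Q (a * b) := fun a b ⟨a1, x, a2, a3, a4⟩ ⟨b1, y, b2, b3, b4⟩ =>
    ⟨NV.mul_le_one a1 b1, x * y, mul_mem a2 b2, NV.mul_le_one a3 b3, by
      rw [map_mul, mul_pow]
      exact mul_sub_mul a4 b4 ((hα b).trans_le b1) (NV.pow_le_one' a3 _)⟩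
  let B : Subring K :=
    { carrier := {f | Q f}
      mul_mem' := mul _ _
      one_mem' := by simpa using cst 1 (by simp)
      add_mem' := fun {a b} ⟨a1, x, a2, a3, a4⟩ ⟨b1, y, b2, b3, b4⟩ =>
        ⟨NV.add_le a1 b1, x + y, add_mem a2 b2, NV.add_le a3 b3, by
          have := NV.sub_le (NV.add_le a4 b4) ((add_pow_le hp n a3 b3).trans
            ((mul_le_of_le_one_right (norm_nonneg _) b3).trans h4))
          rwa [← add_sub_add_comm, sub_sub, add_sub_cancel, ← map_add] at this⟩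
      zero_mem' := by simpa using cst 0 (by simp)
      neg_mem' := fun {a} ha => by simpa using mul _ _ (cst (-1) (by simp)) ha }
  refine ⟨ρ, h7, h5, fun f hf => (h3 B cst ?_ (fun a ha => ⟨h2 a ha, g a, g1 a (h2 a ha), ?_,
    h6 a ha⟩) f hf).2⟩
  · rintro b ⟨-, x, b2, -, b4⟩ e
    have e1 := (hα b).trans e
    have e2 : v (x ^ p ^ n) = 1 := eq_one_of (by
      rw [← NV.map_neg', neg_sub]
      exact b4.trans_lt h5) e1
    refine ⟨by rw [map_inv₀, e, inv_one], x⁻¹, inv_mem b2, ?_, ?_⟩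
    · rw [map_pow, pow_eq_one_iff_of_nonneg (v.av.nonneg _) q0] at e2
      rw [map_inv₀, e2, inv_one]
    · rw [map_inv₀, inv_pow]
      exact inv_sub_inv' b4 e1 e2
  · have := NV.sub_le ((hα a).trans_le (h2 a ha)) (g2 a (h2 a ha)).le
    rwa [sub_sub_cancel, map_pow, pow_le_one_iff_of_nonneg (v.av.nonneg _) q0] at this

end val

theorem root_eq_one {C : Type} [NormedField C] [IsUltrametricDist C] {p : ℕ} (k : ℕ) {z : C}
    (h1 : ‖(p : C)‖ ≤ 1) (h : ‖z - 1‖ < ‖(p : C)‖) (hz : z ^ p ^ k = 1) : z = 1 := by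
  induction k generalizing z with
  | zero => simpa using hz
  | succ k ih =>
    have h2 : ‖z‖ ≤ 1 := by
      simpa using (IsUltrametricDist.norm_add_le_max (z - 1) 1).trans
        (max_le (h.le.trans h1) norm_one.le)
    have h3 : ‖∑ i ∈ Finset.range p, z ^ i - p‖ < ‖(p : C)‖ := by
      rw [show (p : C) = ∑ _i ∈ Finset.range p, 1 by simp, ← Finset.sum_sub_distrib,
        show (∑ _i ∈ Finset.range p, (1 : C)) = p by simp]
      refine (IsUltrametricDist.norm_sum_le_of_forall_le_of_nonneg (norm_nonneg (z - 1))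
        fun i _ => ?_).trans_lt h
      rw [← geom_sum_mul, norm_mul]
      exact mul_le_of_le_one_left (norm_nonneg _)
        (IsUltrametricDist.norm_sum_le_of_forall_le_of_nonneg zero_le_one fun j _ => by
          rw [norm_pow]
          exact pow_le_one₀ (norm_nonneg _) h2)
    have h4 : ‖∑ i ∈ Finset.range p, z ^ i‖ = ‖(p : C)‖ := by
      have := IsUltrametricDist.norm_add_eq_max_of_norm_ne_norm h3.ne
      rwa [sub_add_cancel, max_eq_right h3.le] at this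
    have h5 := ih (z := z ^ p) (by
      rw [← geom_sum_mul, norm_mul, h4]
      exact (mul_le_of_le_one_left (norm_nonneg _) h1).trans_lt h) (by rwa [← pow_mul, ← pow_succ'])
    rw [← sub_eq_zero, ← geom_sum_mul, mul_eq_zero] at h5
    refine sub_eq_zero.1 (h5.resolve_left fun e => ?_)
    rw [e, norm_zero] at h4
    exact (norm_nonneg _).not_gt (h4 ▸ h)

end Vale.Agent.P022K.OR
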