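import Vale.Agent.P022K.OR.St
import Vale.Agent.P022K.QT.Locc

/-!
# P022K, block OR: ordinary classes, from finite level to the module
-/

set_option autoImplicit false

open scoped MatrixGroups TensorProduct

noncomputable section

namespace Vale.Agent.P022K.OR

open Vale.Agent.P022 Vale.Agent.P022K.Sh Vale.Agent.P022.H218.L3

variable {G0 G : Type} [Group G0] [Group G] {T : Tw G0 G} {A : T.Ax} {p : ℕ} [Fact p.Prime]
  {H : Type} [Group H] [TopologicalSpace H] {th : H → (G → Mer) → G → Mer}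
  {M : Type} [AddCommGroup M] {a : Representation ℤ G M} {g : Representation ℤ H M}
  {im : ∀ k U, T.Hn (p ^ k) U →+ M} {O K : Type} [CommRing O] [IsDomain O]
  [IsDiscreteValuationRing O] [Field K] [Algebra O K] {w : T.Lc O K} {U : Subgroup G}

namespace Om

omit [Fact p.Prime] in
theorem tv_com (cc : T.CC p a g) (s : H) : Commute (w.Tv a) (g s) :=
  Commute.sum_left _ _ _ fun _ _ => cc.com _ s

omit [Fact p.Prime] [TopologicalSpace H] in
theorem im_hN (lk : A.Lk p a g th im) (hU : U ∈ T.Nl) (h : w.At (KK O K) U)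
    (c : Cor U (w.To U) U) (k m : ℕ) (b : T.Hn (p ^ k) U) :
    im k U ((T.hN (p ^ k) c ^ m) b) = (w.Tv a ^ m) (im k U b) := by
  induction m with
  | zero => rfl
  | succ m ih =>
    obtain ⟨b', h1, h2⟩ := lk.prj U hU k ((T.hN (p ^ k) c ^ m) b)
    rw [pow_succ', pow_succ', Module.End.mul_apply, Module.End.mul_apply, lk.cor U hU U hU,
      Tw.Lc.L0.hv_To ⟨hU.1, h⟩ (h2 ▸ ((lk.bij U hU k).mapsTo h1).1), ih]

/-- the integral statement -/
theorem int (k0 : T.Ok0) (gr : A.GR p th) (cc : T.CC p a g) (lk : A.Lk p a g th im)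
    (hU : U ∈ T.Nl) (h : w.At (KK O K) U) {I Φ : Set H} {ε : H → ℕ → ℕ}
    (ol : OrL w p th I Φ ε) {v : M} (hv : v ∈ Fv a U) {n : ℕ} (n0 : 0 < n)
    (hn : (w.Tv a ^ n) v = v) {k : ℕ} (hk : p ^ k • v = 0) {s : H} (hs : s ∈ I) :
    (∀ s' ∈ I, g s (g s' v - v) = ε s k • (g s' v - v)) ∧ ∀ φ ∈ Φ,
      g s (g φ (g φ v) - w.Tv a (g φ v) + qq O • v) =
        ε s k • (g φ (g φ v) - w.Tv a (g φ v) + qq O • v) := by
  have := k0.finHn hU.1 (p ^ k)
  have : Finite (Module.End (ZMod (p ^ k)) (T.Hn (p ^ k) U)) :=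
    Finite.of_injective _ DFunLike.coe_injective
  have c := Tw.Lc.L0.cor w ⟨hU.1, h⟩
  obtain ⟨N, h1, h2, h3, h4⟩ := ol U hU h c k
  obtain ⟨b, hb, rfl⟩ := (lk.bij U hU k).surjOn ⟨hv, hk⟩
  obtain ⟨r, r0, hr⟩ := Fre.exists_idem (T.hN (p ^ k) c)
  have key : ∀ y ∈ N, ∀ y', T.Ga (th s) (p ^ k) U y y' → (w.Tv a ^ n) (im k U y) = im k U y →
      g s (im k U y) = ε s k • im k U y := fun y hy y' e1 e2 => by
    have a1 : ∀ m, (T.hN (p ^ k) c ^ m) y ∈ N ∧
        T.Ga (th s) (p ^ k) U ((T.hN (p ^ k) c ^ m) y) ((T.hN (p ^ k) c ^ m) y') := fun m => by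
      induction m with
      | zero => exact ⟨hy, e1⟩
      | succ m ih =>
        rw [pow_succ']
        exact ⟨h1 _ ih.1, gr.cor U hU U hU _ c k s _ _ ih.2⟩
    have a2 : im k U ((T.hN (p ^ k) c ^ (r * n)) y) = im k U y := by
      rw [im_hN lk hU h, mul_comm, pow_mul, Module.End.pow_apply]
      exact Function.iterate_fixed e2 r
    have a3 := congrArg (im k U) (h4 s hs _ (a1 _).1 _ ⟨r * n, Nat.mul_pos r0 n0,
      DFunLike.congr_fun (hr n n0) y⟩ (a1 (r * n)).2)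
    rwa [lk.gal U hU k s _ _ (a1 _).2, map_nsmul, a2] at a3
  have fx : ∀ t, (w.Tv a ^ n) (g t (im k U b)) = g t (im k U b) := fun t => by
    rw [← Module.End.mul_apply, ((tv_com cc t).pow_left n).eq, Module.End.mul_apply, hn]
  obtain ⟨b', e0⟩ := gr.ex U hU k s b hb
  refine ⟨fun t ht => ?_, fun φ hφ => ?_⟩
  · obtain ⟨b1, e1⟩ := gr.ex U hU k t b hb
    obtain ⟨b1', e2⟩ := gr.ex U hU k s b1 (gr.ne hU e1 hb)
    have := key _ (h2 t ht _ _ e1) _ (gr.sub hU e2 e0)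
    rw [map_sub, lk.gal U hU k t _ _ e1] at this
    exact this (by rw [map_sub, fx, hn])
  · obtain ⟨b1, e1⟩ := gr.ex U hU k φ b hb
    have m1 := gr.ne hU e1 hb
    obtain ⟨b2, e2⟩ := gr.ex U hU k φ b1 m1
    obtain ⟨b1', e3⟩ := gr.ex U hU k s b1 m1
    obtain ⟨b2', e4⟩ := gr.ex U hU k s b2 (gr.ne hU e2 m1)
    have := key _ (h3 φ hφ _ _ _ e1 e2) _ (gr.add U hU k s _ _ _ _
      (gr.sub hU e4 (gr.cor U hU U hU _ c k s _ _ e3)) (gr.nsmul hU e0 _))
    have e5 := im_hN lk hU h c k 1 b1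
    rw [pow_one, pow_one] at e5
    rw [map_add, map_sub, map_nsmul, e5, lk.gal U hU k φ _ _ e2, lk.gal U hU k φ _ _ e1] at this
    refine this ?_
    rw [map_add, map_sub, map_nsmul, hn, ← Module.End.mul_apply (g φ), ← map_mul, fx,
      ← Module.End.mul_apply _ (w.Tv a), ((Commute.refl (w.Tv a)).pow_left n).eq,
      Module.End.mul_apply, fx]

theorem eps_smul {Λ N : Type} [CommRing Λ] [Algebra ℤ_[p] Λ] [AddCommGroup N] [Module Λ N]
    {k : ℕ} {x : N} (hx : p ^ k • x = 0) (ε : ℤ_[p]) :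
    algebraMap ℤ_[p] Λ ε • x = (PadicInt.toZModPow k ε).val • x := by
  obtain ⟨t, ht⟩ : (p : ℤ_[p]) ^ k ∣ ε - (PadicInt.toZModPow k ε).val := by
    rw [← Ideal.mem_span_singleton, ← PadicInt.ker_toZModPow, RingHom.mem_ker, map_sub, map_natCast,
      ZMod.natCast_zmod_val, sub_self]
  conv_lhs => rw [eq_add_of_sub_eq ht]
  rw [map_add, map_mul, map_pow, map_natCast, map_natCast, add_smul, mul_comm, mul_smul,
    ← Nat.cast_pow, Nat.cast_smul_eq_nsmul, hx, smul_zero, zero_add, Nat.cast_smul_eq_nsmul]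

end Om

open Om in
/-- **row ORM** -/
theorem orm1 (Λ : Type) [CommRing Λ] [Algebra ℤ_[p] Λ] (hp : (p : Λ) ∈ nonZeroDivisors Λ)
    (hf : Finite (Λ ⧸ Ideal.span {(p : Λ)})) (k0 : T.Ok0) (gr : A.GR p th) (cc : T.CC p a g)
    (lk : A.Lk p a g th im) (hU : U ∈ T.Nl) (h : w.At (KK O K) U) {I Φ : Set H} {ε : H → ℤ_[p]}
    (ol : OrL w p th I Φ fun s k => (PadicInt.toZModPow k (ε s)).val) :
    OrM w (bc Λ a) (bc Λ g) I Φ (fun s => algebraMap ℤ_[p] Λ (ε s)) U := by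
  obtain ⟨d, e, b⟩ := ex_bs hp
  have b := b.bij cc.tor
  have cc' := cc.bc k0 b
  intro z hz ⟨n, n0, hn⟩ s hs
  obtain ⟨k, hk⟩ := cc'.tor z
  obtain ⟨v, rfl⟩ := b.2 z
  have tv : ∀ m, (w.Tv (bc Λ a) ^ m) (tcr e v) = tcr e fun i => (w.Tv a ^ m) (v i) := fun m => by
    induction m with
    | zero => rfl
    | succ m ih => simp only [pow_succ', Module.End.mul_apply, ih, Tv_tc]
  have key := fun i => int k0 gr cc lk hU h ol ((tc_mem b.1).1 hz i) n0
    (congrFun (b.1 ((tv n).symm.trans hn)) i) ((tc_zero b.1).1 hk i) hs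
  refine ⟨fun t ht => ?_, fun φ hφ => ?_⟩
  · rw [LinearMap.sub_apply, LinearMap.smul_apply, Module.End.one_apply, eps_smul (k := k)
      (by rw [smul_sub, ← map_nsmul, hk, map_zero, sub_zero]), sub_eq_zero]
    simp only [bc_tc, ← map_sub, ← map_nsmul]
    exact congrArg _ (funext fun i => (key i).1 t ht)
  · rw [LinearMap.sub_apply, LinearMap.smul_apply, Module.End.one_apply, eps_smul (k := k)
      (by
        rw [smul_add, smul_comm _ (qq O), hk, smul_zero]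
        simp only [smul_sub, ← map_nsmul, hk, map_zero, sub_zero, add_zero]), sub_eq_zero]
    simp only [bc_tc, Tv_tc, ← map_sub, ← map_nsmul, ← map_add]
    exact congrArg _ (funext fun i => (key i).2 φ hφ)

end Vale.Agent.P022K.OR
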