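import Vale.Agent.P022K.OR.Orm
import Vale.Agent.P022K.Top.SiSt

/-!
# P022K, block OR: the ordinary part of the sites of quaternion algebras
-/

set_option autoImplicit false

open NumberField

noncomputable section

namespace Vale.Agent.P022K.Top

open Vale.Agent.P022 Vale.Agent.P022.C CH Sh
open Vale.Agent.P022.H443 (inP)
open Vale.Agent.P022E.GW (Ov Fb)

variable {p : ℕ} [Fact p.Prime]

/-- the fields `ine` and `frb` for an integral site -/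
theorem S0.orl0 {Z : S0 p} (h : Z.Ok1) (gr : Z.ax.GR p Z.th) (O : Type) [CommRing O]
    [Algebra ℤ_[p] O] (hp : (p : O) ∈ nonZeroDivisors O) (hf : Finite (O ⧸ Ideal.span {(p : O)}))
    (ol : ∀ k P, Ov p P → below Z.j P = (Z.u k).asIdeal → OR.OrL (Z.x k) p Z.th {s | s.1 ∈ inP P}
      {s | Fb p P s.1} fun s n =>
        (PadicInt.toZModPow n (cyclotomicCharacter Qb p s.1.toRingEquiv).val).val)
    (ram : ∀ U' k, (Z.si O).Sl U' → ∃ o : O, o ≠ 0 ∧ ∀ z ∈ Fv (Z.si O).a U',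
      (Z.x k).Tv (Z.si O).a ((Z.x k).Tv (Z.si O).a z) = (p + 1) ^ 2 • z → o • z = 0) :
    (Z.si O).Orl := by
  have key := fun U' k P (s : (Z.si O).Sl U') h1 h2 => OR.orm1 O hp hf h.ok.ok gr h.ok.cc h.lk
    ⟨s.1, h.ok.lev.2.of_le s.2.1⟩ (s.2.2 k) (ol k P h1 h2)
  refine ⟨fun U' k P s h1 h2 z hz hn t t' ht ht' => (key U' k P s h1 h2 z hz hn t ht).1 t' ht',
    fun U' k P s h1 h2 z hz hn t φ ht hφ => ?_, ram⟩
  have := (key U' k P s h1 h2 z hz hn t ht).2 φ hφ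
  rwa [QD.qq_padic] at this

theorem SX.orl0 {X : Fd} {Y : QD X.F} (D : SX X Y p) (h : D.Ok1) (can : Y.CAN) (orx : OR.ORX Y)
    (O : Type) [CommRing O] [Algebra ℤ_[p] O] (hp : (p : O) ∈ nonZeroDivisors O)
    (hf : Finite (O ⧸ Ideal.span {(p : O)}))
    (ram : ∀ U' k, (D.s0.si O).Sl U' → ∃ o : O, o ≠ 0 ∧ ∀ z ∈ Fv (D.s0.si O).a U',
      (D.x k).Tv (D.s0.si O).a ((D.x k).Tv (D.s0.si O).a z) = (p + 1) ^ 2 • z → o • z = 0) :
    (D.s0.si O).Orl :=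
  S0.orl0 h.ok (can.gr h.emb (Tw.isOpen_GK X.j) le_rfl h.geo _ (Fact.out : p.Prime).pos) O hp hf
    (fun k P h1 h2 => by
      have := orx X.j D.io h.emb X.H le_rfl D.th h.geo _ _ (D.x k) k.1 (h.px k) p P h1.2.1 h1.2.2 h2
      rwa [QD.qq_padic] at this) ram

end Vale.Agent.P022K.Top
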